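import Vale.Agent.P224.SP.Piv.Dn

/-!
Column function f 4 2 0 0 0: kernel-checked polynomial approximant on `(0, 1)`.
-/

namespace Vale.Agent.P224.SP.K01

open Vale.Agent.P224.SP

/-- coefficient lists over `DnL` -/
def r : Q4 := ⟨
  [-562500, -1125000, 390000, 6076500, 14693550, 9027840, -17081820, -28001592, -8055336,
  10269768, 10005960, 3721380, 611118, 31104, -972],
  [1125000, 3600000, 4117500, 2016000, -1577250, -6436800, -6861150, -1710000, 1713150,
  1947600, 1409850, 583200, 72900],
  [-562500, -1575000, -1530000, 1386000, 6572475, 5118930, -4246740, -6256674, -413622,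
  1371942, 186948, -45198, -6561],
  [0, 0, 0, -4050000, -8910000, 2430000, 17010000, 7290000, -7290000, -5670000, -810000]⟩

/-- reduced coefficient lists -/
def N : Q4 := ⟨
  [-112500, -90000, 96000, 893100, 1813290, 441300, -1404372, -1207464, -393390, -36936, 972],
  [225000, 450000, 463500, 477000, 67950, -341100, -243450, -145800, -72900],
  [-112500, -180000, -180000, 214200, 674955, 133200, -248184, 5832, 6561],
  [0, 0, 0, -810000, -810000, 810000, 810000]⟩

/-- approximant (times `DD`) -/
def B : List ℤ :=
  [-138945228, -166641874, 5817619792, 15648569962, 9998617129, -13223311811, 25428033774,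
  -23711911046, 22089095618, -16640386352, 8590769199, -2652236840, 367676029]

/-- error (times `DD`) -/
def E : ℤ := 334

/-- test list -/
def n0 : List ℤ :=
  [-2221503776250000, -1742495588875000, 93875764050000, 12295736628695000, 33148429390705500,
  17186690743947500, -29538712812672400, -22599552505793800, -5758361432625500,
  -2404996607148700, 3395592090879900, -2772399978800000, 989927006862500, 24210764850000,
  -113842181312500, 12806543125000, 4595950362500]

/-- test list -/
def n1 : List ℤ :=
  [4529848320000000, 9059696640000000, 9331487539200000, 9603278438400000, 1368014192640000,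
  -6867250053120000, -4901295882240000, -2935341711360000, -1467670855680000]

/-- test list -/
def n2 : List ℤ :=
  [-2264924160000000, -3623878656000000, -3623878656000000, 4312415600640000,
  13588638990336000, 2681670205440000, -4996603890892800, 117413668454400, 132090377011200]

/-- test list -/
def n3 : List ℤ :=
  [0, 0, 0, -16307453952000000, -16307453952000000, 16307453952000000, 16307453952000000]

/-- weight list -/
def wt : List ℤ :=
  [104375000, -62625000, -141950000, 58450000, 37575000, 4175000]

/-- factor -/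
def fac : List ℤ := [5, 6, -4, -6, -1]

lemma e0 : eqL n0 (addL (smulL DD N.n0) (smulL (-1) (mulL B (dnL 12500 0 1 1 0 2)))) = true := by
  decide +kernel

lemma e1 : eqL n1 (smulL DD N.n1) = true := by
  decide +kernel

lemma e2 : eqL n2 (smulL DD N.n2) = true := by
  decide +kernel

lemma e3 : eqL n3 (smulL DD N.n3) = true := by
  decide +kernel

lemma e4 : eqL wt (smulL E (mulL (powZ 1) (dnL 12500 0 1 1 0 2))) = true := by
  decide +kernel

lemma hv : vanT n1 n2 n3 [] [] 0 0 = true := by
  decide +kernel

lemma h0 : chkL05 n0 n1 n2 n3 wt 0 = true := by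
  decide +kernel

lemma h6 : chkLp5 n0 n1 n2 n3 wt 0 6 1 2 128 = true := by
  decide +kernel

lemma h5 : chkLp5 n0 n1 n2 n3 wt 0 5 1 2 64 = true := by
  decide +kernel

lemma h4 : chkLp5 n0 n1 n2 n3 wt 0 4 1 2 32 = true := by
  decide +kernel

lemma h3 : chkLp5 n0 n1 n2 n3 wt 0 3 1 2 16 = true := by
  decide +kernel

lemma h2 : chkLp5 n0 n1 n2 n3 wt 0 2 1 2 8 = true := by
  decide +kernel

lemma r1 : chkN 1 1 4 4 (addL (rW5 n1 n2 n3 wt 0) (rM n0 n1 n2 n3 [] [] 0)) = true := by
  decide +kernel

lemma r2 : chkN 1 1 4 4 (addL (rW5 n1 n2 n3 wt 0)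
      (smulL (-1) (rM n0 n1 n2 n3 [] [] 0))) = true := by
  decide +kernel

lemma d0 : eqL r.n0 (mulL fac N.n0) = true := by
  decide +kernel

lemma d1 : eqL r.n1 (mulL fac N.n1) = true := by
  decide +kernel

lemma d2 : eqL r.n2 (mulL fac N.n2) = true := by
  decide +kernel

lemma d3 : eqL r.n3 (mulL fac N.n3) = true := by
  decide +kernel

lemma dd : eqL DnL (mulL fac (dnL 12500 0 1 1 0 2)) = true := by
  decide +kernel

theorem eq {T : ℝ} (h0 : 0 < T) (h1 : T < 1) :
    G4 r T / ev DnL T = qf N 12500 0 1 1 0 2 T :=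
  G4_div_eq (by norm_num) d0 d1 d2 d3 dd h0 h1

theorem bd {T : ℝ} (hT0 : 0 < T) (hT1 : T < 1) :
    |(DD : ℝ) * (G4 r T / ev DnL T) - ev B T| ≤ E * (1 - T) ^ 1 := by
  rw [eq hT0 hT1]
  exact qf_bd (by norm_num) e0 e1 e2 e3 e4 (q := 1) (by norm_num) (by norm_num) hv h0
    h6 h5 h4 h3 h2 r1 r2 hT0 hT1

end Vale.Agent.P224.SP.K01
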