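import Vale.Agent.P224.SP.Piv.Dn

/-!
Column function f 3 0 0 0 1: kernel-checked polynomial approximant on `(0, 1)`.
-/

namespace Vale.Agent.P224.SP.K02

open Vale.Agent.P224.SP

/-- coefficient lists over `DnL` -/
def r : Q4 := ⟨
  [5500000, 22175000, -245000, -69244000, -45563600, 57474560, 66223520, 3645136, -22292368,
  -13612376, -3606424, -438896, -16128, 576],
  [0, -15150000, -36360000, -10716000, 33912000, 30038400, 6004800, -2104800, -3038400,
  -2024400, -518400, -43200],
  [3000000, 13575000, 7560000, -20998500, -17368200, 9624420, 8121840, -2180748, -1355976,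
  -24060, 42336, 3888],
  [-6000000, -8400000, 22860000, 35460000, -21780000, -45180000, -1020000, 17580000, 5940000,
  540000]⟩

/-- reduced coefficient lists -/
def N : Q4 := ⟨
  [55000, 199750, -29550, -466860, -215160, 208794, 184238, 58460, 5472, -144],
  [0, -151500, -303000, -131400, 40200, 30900, 21600, 10800],
  [30000, 123750, 54900, -101145, -29820, 37983, -864, -972],
  [-60000, -60000, 195000, 195000, -135000, -135000]⟩

/-- approximant (times `DD`) -/
def B : List ℤ :=
  [11421099485, 6439510649, -26773662136, -9034088208, 4631320283, -15927726678, -1870317981,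
  22881336632, -32604322408, 27160982622, -14254555374, 4368905951, -597673877]

/-- error (times `DD`) -/
def E : ℤ := 188

/-- test list -/
def n0 : List ℤ :=
  [928841576546875, 3706735705965625, -154558689591250, -8461329982355750, -4412957195134500,
  3770803122170425, 3841904114817725, 714011980282000, -116967587173225, 385215688643950,
  -270914708384375, -1305827621875, 156619642209375, -116577132987500, 29900577575000,
  2446445903125, -1867730865625]

/-- test list -/
def n1 : List ℤ :=
  [0, -3050097868800000, -6100195737600000, -2645431418880000, 809332899840000,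
  622099169280000, 434865438720000, 217432719360000]

/-- test list -/
def n2 : List ℤ :=
  [603979776000000, 2491416576000000, 1105282990080000, -2036317814784000, -600355897344000,
  764698794393600, -17394617548800, -19568944742400]

/-- test list -/
def n3 : List ℤ :=
  [-1207959552000000, -1207959552000000, 3925868544000000, 3925868544000000, -2717908992000000,
  -2717908992000000]

/-- weight list -/
def wt : List ℤ :=
  [2937500, 587500, -5875000, -1175000, 2937500, 587500]

/-- factor -/
def fac : List ℤ := [100, 40, -96, -40, -4]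

lemma e0 : eqL n0 (addL (smulL DD N.n0) (smulL (-1) (mulL B (dnL 3125 0 1 2 0 1)))) = true := by
  decide +kernel

lemma e1 : eqL n1 (smulL DD N.n1) = true := by
  decide +kernel

lemma e2 : eqL n2 (smulL DD N.n2) = true := by
  decide +kernel

lemma e3 : eqL n3 (smulL DD N.n3) = true := by
  decide +kernel

lemma e4 : eqL wt (smulL E (mulL (powZ 1) (dnL 3125 0 1 2 0 1))) = true := by
  decide +kernel

lemma hv : vanT n1 n2 n3 [] [] 0 0 = true := by
  decide +kernel

lemma h0 : chkL05 n0 n1 n2 n3 wt 0 = true := by
  decide +kernel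

lemma h6 : chkLp5 n0 n1 n2 n3 wt 0 6 1 2 128 = true := by
  decide +kernel

lemma h5 : chkLp5 n0 n1 n2 n3 wt 0 5 1 2 64 = true := by
  decide +kernel

lemma h4 : chkLp5 n0 n1 n2 n3 wt 0 4 1 2 32 = true := by
  decide +kernel

lemma h3 : chkLp5 n0 n1 n2 n3 wt 0 3 1 2 16 = true := by
  decide +kernel

lemma h2 : chkLp5 n0 n1 n2 n3 wt 0 2 1 2 8 = true := by
  decide +kernel

lemma r1 : chkN 1 1 4 4 (addL (rW5 n1 n2 n3 wt 0) (rM n0 n1 n2 n3 [] [] 0)) = true := by
  decide +kernel

lemma r2 : chkN 1 1 4 4 (addL (rW5 n1 n2 n3 wt 0)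
      (smulL (-1) (rM n0 n1 n2 n3 [] [] 0))) = true := by
  decide +kernel

lemma d0 : eqL r.n0 (mulL fac N.n0) = true := by
  decide +kernel

lemma d1 : eqL r.n1 (mulL fac N.n1) = true := by
  decide +kernel

lemma d2 : eqL r.n2 (mulL fac N.n2) = true := by
  decide +kernel

lemma d3 : eqL r.n3 (mulL fac N.n3) = true := by
  decide +kernel

lemma dd : eqL DnL (mulL fac (dnL 3125 0 1 2 0 1)) = true := by
  decide +kernel

theorem eq {T : ℝ} (h0 : 0 < T) (h1 : T < 1) :
    G4 r T / ev DnL T = qf N 3125 0 1 2 0 1 T :=
  G4_div_eq (by norm_num) d0 d1 d2 d3 dd h0 h1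

theorem bd {T : ℝ} (hT0 : 0 < T) (hT1 : T < 1) :
    |(DD : ℝ) * (G4 r T / ev DnL T) - ev B T| ≤ E * (1 - T) ^ 1 := by
  rw [eq hT0 hT1]
  exact qf_bd (by norm_num) e0 e1 e2 e3 e4 (q := 1) (by norm_num) (by norm_num) hv h0
    h6 h5 h4 h3 h2 r1 r2 hT0 hT1

end Vale.Agent.P224.SP.K02
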