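import Vale.Agent.P224.SP.Piv.Dn

/-!
Column function f 2 0 1 0 1: kernel-checked polynomial approximant on `(0, 1)`.
-/

namespace Vale.Agent.P224.SP.K03

open Vale.Agent.P224.SP

/-- coefficient lists over `DnL` -/
def r : Q4 := ⟨
  [-562500, -13050000, -32872500, -6498000, 51519600, 48092400, -2663352, -24508944, -14928948,
  -4017312, -492948, -18144, 648],
  [1125000, 2700000, 2925000, 2592000, 853200, -1425600, -2588400, -3283200, -2266200, -583200,
  -48600],
  [-562500, -7875000, -14613750, 877500, 18087300, 8480700, -2893824, -1530828, -21600, 47628,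
  4374],
  [0, 13500000, 18900000, -21060000, -37260000, 1620000, 17820000, 5940000, 540000]⟩

/-- reduced coefficient lists -/
def N : Q4 := ⟨
  [-11250, -256500, -565650, -154440, 446094, 398628, 131130, 12312, -324],
  [22500, 45000, 62100, 79200, 63900, 48600, 24300],
  [-11250, -153000, -241875, -37080, 82728, -1944, -2187],
  [0, 270000, 270000, -270000, -270000]⟩

/-- approximant (times `DD`) -/
def B : List ℤ :=
  [-138952430, -25751521395, -10625943328, 7471191269, -21807497271, -376414204, 25007349938,
  -32526013997, 22252261491, -8338349974, 1347346029]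

/-- error (times `DD`) -/
def E : ℤ := 7634

/-- test list -/
def n0 : List ℤ :=
  [-222150152562500, -4354081325081250, -10093769705917500, -3593288490204250,
  8150174002096050, 8482345661321350, 1541201542996000, -453960942529600, 992590729569200,
  -451613685250000, -236539489881250, 372187992993750, -139927838981250, -1589211250000,
  8420912681250]

/-- test list -/
def n1 : List ℤ :=
  [452984832000000, 905969664000000, 1250238136320000, 1594506608640000, 1286476922880000,
  978447237120000, 489223618560000]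

/-- test list -/
def n2 : List ℤ :=
  [-226492416000000, -3080296857600000, -4869586944000000, -746519003136000, 1665534630297600,
  -39137889484800, -44030125670400]

/-- test list -/
def n3 : List ℤ :=
  [0, 5435817984000000, 5435817984000000, -5435817984000000, -5435817984000000]

/-- weight list -/
def wt : List ℤ :=
  [238562500, 47712500, -477125000, -95425000, 238562500, 47712500]

/-- factor -/
def fac : List ℤ := [50, 20, -48, -20, -2]

lemma e0 : eqL n0 (addL (smulL DD N.n0) (smulL (-1) (mulL B (dnL 6250 0 1 2 0 1)))) = true := by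
  decide +kernel

lemma e1 : eqL n1 (smulL DD N.n1) = true := by
  decide +kernel

lemma e2 : eqL n2 (smulL DD N.n2) = true := by
  decide +kernel

lemma e3 : eqL n3 (smulL DD N.n3) = true := by
  decide +kernel

lemma e4 : eqL wt (smulL E (mulL (powZ 1) (dnL 6250 0 1 2 0 1))) = true := by
  decide +kernel

lemma hv : vanT n1 n2 n3 [] [] 0 0 = true := by
  decide +kernel

lemma h0 : chkL05 n0 n1 n2 n3 wt 0 = true := by
  decide +kernel

lemma h6 : chkLp5 n0 n1 n2 n3 wt 0 6 1 2 128 = true := by
  decide +kernel

lemma h5 : chkLp5 n0 n1 n2 n3 wt 0 5 1 2 64 = true := by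
  decide +kernel

lemma h4 : chkLp5 n0 n1 n2 n3 wt 0 4 1 2 32 = true := by
  decide +kernel

lemma h3 : chkLp5 n0 n1 n2 n3 wt 0 3 1 2 16 = true := by
  decide +kernel

lemma h2 : chkLp5 n0 n1 n2 n3 wt 0 2 1 2 8 = true := by
  decide +kernel

lemma r1 : chkN 1 1 4 4 (addL (rW5 n1 n2 n3 wt 0) (rM n0 n1 n2 n3 [] [] 0)) = true := by
  decide +kernel

lemma r2 : chkN 1 1 4 4 (addL (rW5 n1 n2 n3 wt 0)
      (smulL (-1) (rM n0 n1 n2 n3 [] [] 0))) = true := by
  decide +kernel

lemma d0 : eqL r.n0 (mulL fac N.n0) = true := by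
  decide +kernel

lemma d1 : eqL r.n1 (mulL fac N.n1) = true := by
  decide +kernel

lemma d2 : eqL r.n2 (mulL fac N.n2) = true := by
  decide +kernel

lemma d3 : eqL r.n3 (mulL fac N.n3) = true := by
  decide +kernel

lemma dd : eqL DnL (mulL fac (dnL 6250 0 1 2 0 1)) = true := by
  decide +kernel

theorem eq {T : ℝ} (h0 : 0 < T) (h1 : T < 1) :
    G4 r T / ev DnL T = qf N 6250 0 1 2 0 1 T :=
  G4_div_eq (by norm_num) d0 d1 d2 d3 dd h0 h1

theorem bd {T : ℝ} (hT0 : 0 < T) (hT1 : T < 1) :
    |(DD : ℝ) * (G4 r T / ev DnL T) - ev B T| ≤ E * (1 - T) ^ 1 := by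
  rw [eq hT0 hT1]
  exact qf_bd (by norm_num) e0 e1 e2 e3 e4 (q := 1) (by norm_num) (by norm_num) hv h0
    h6 h5 h4 h3 h2 r1 r2 hT0 hT1

end Vale.Agent.P224.SP.K03
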