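import Vale.Agent.P224.SP.Piv.Dn

/-!
Column function f 3 0 1 0 1: kernel-checked polynomial approximant on `(0, 1)`.
-/

namespace Vale.Agent.P224.SP.K04

open Vale.Agent.P224.SP

/-- coefficient lists over `DnL` -/
def r : Q4 := ⟨
  [-375000, -16950000, -44265000, -9432000, 68210400, 64164000, -2808528, -32257536, -20078232,
  -5498928, -684552, -25536, 912],
  [750000, 1800000, 2850000, 3888000, 2224800, -518400, -2589600, -4348800, -3166800, -820800,
  -68400],
  [-375000, -9750000, -19192500, 945000, 23749200, 10848600, -4163736, -2110632, -24120, 67032,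
  6156],
  [0, 18000000, 25200000, -28080000, -49680000, 2160000, 23760000, 7920000, 720000]⟩

/-- reduced coefficient lists -/
def N : Q4 := ⟨
  [-3750, -168000, -379050, -105480, 293058, 264816, 89970, 8664, -228],
  [7500, 15000, 29700, 44400, 39300, 34200, 17100],
  [-3750, -96000, -157125, -21360, 56646, -1368, -1539],
  [0, 180000, 180000, -180000, -180000]⟩

/-- approximant (times `DD`) -/
def B : List ℤ :=
  [-92631414, -34299919289, -14033546113, 7637487237, -19021475791, -34753590575, 120357794267,
  -198755174483, 220970483999, -169739639279, 86298227531, -26101373545, 3551298959]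

/-- error (times `DD`) -/
def E : ℤ := 1516

/-- test list -/
def n0 : List ℤ :=
  [-74050106156250, -2844613667696875, -6770044717750625, -2410285471000375, 5235212227124225,
  5956280155588450, 443954242786500, 256064912446300, 1062805955983650, -1827350720325000,
  1245798066825000, 190083359168750, -979445922112500, 694801368665625, -175327555946875,
  -14979936846875, 11097809246875]

/-- test list -/
def n1 : List ℤ :=
  [150994944000000, 301989888000000, 597939978240000, 893890068480000, 791213506560000,
  688536944640000, 344268472320000]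

/-- test list -/
def n2 : List ℤ :=
  [-75497472000000, -1932735283200000, -3163344076800000, -430033600512000, 1140434613043200,
  -27541477785600, -30984162508800]

/-- test list -/
def n3 : List ℤ :=
  [0, 3623878656000000, 3623878656000000, -3623878656000000, -3623878656000000]

/-- weight list -/
def wt : List ℤ :=
  [23687500, 4737500, -47375000, -9475000, 23687500, 4737500]

/-- factor -/
def fac : List ℤ := [100, 40, -96, -40, -4]

lemma e0 : eqL n0 (addL (smulL DD N.n0) (smulL (-1) (mulL B (dnL 3125 0 1 2 0 1)))) = true := by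
  decide +kernel

lemma e1 : eqL n1 (smulL DD N.n1) = true := by
  decide +kernel

lemma e2 : eqL n2 (smulL DD N.n2) = true := by
  decide +kernel

lemma e3 : eqL n3 (smulL DD N.n3) = true := by
  decide +kernel

lemma e4 : eqL wt (smulL E (mulL (powZ 1) (dnL 3125 0 1 2 0 1))) = true := by
  decide +kernel

lemma hv : vanT n1 n2 n3 [] [] 0 0 = true := by
  decide +kernel

lemma h0 : chkL05 n0 n1 n2 n3 wt 0 = true := by
  decide +kernel

lemma h6 : chkLp5 n0 n1 n2 n3 wt 0 6 1 2 128 = true := by
  decide +kernel

lemma h5 : chkLp5 n0 n1 n2 n3 wt 0 5 1 2 64 = true := by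
  decide +kernel

lemma h4 : chkLp5 n0 n1 n2 n3 wt 0 4 1 2 32 = true := by
  decide +kernel

lemma h3 : chkLp5 n0 n1 n2 n3 wt 0 3 1 2 16 = true := by
  decide +kernel

lemma h2 : chkLp5 n0 n1 n2 n3 wt 0 2 1 2 8 = true := by
  decide +kernel

lemma r1 : chkN 1 1 4 4 (addL (rW5 n1 n2 n3 wt 0) (rM n0 n1 n2 n3 [] [] 0)) = true := by
  decide +kernel

lemma r2 : chkN 1 1 4 4 (addL (rW5 n1 n2 n3 wt 0)
      (smulL (-1) (rM n0 n1 n2 n3 [] [] 0))) = true := by
  decide +kernel

lemma d0 : eqL r.n0 (mulL fac N.n0) = true := by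
  decide +kernel

lemma d1 : eqL r.n1 (mulL fac N.n1) = true := by
  decide +kernel

lemma d2 : eqL r.n2 (mulL fac N.n2) = true := by
  decide +kernel

lemma d3 : eqL r.n3 (mulL fac N.n3) = true := by
  decide +kernel

lemma dd : eqL DnL (mulL fac (dnL 3125 0 1 2 0 1)) = true := by
  decide +kernel

theorem eq {T : ℝ} (h0 : 0 < T) (h1 : T < 1) :
    G4 r T / ev DnL T = qf N 3125 0 1 2 0 1 T :=
  G4_div_eq (by norm_num) d0 d1 d2 d3 dd h0 h1

theorem bd {T : ℝ} (hT0 : 0 < T) (hT1 : T < 1) :
    |(DD : ℝ) * (G4 r T / ev DnL T) - ev B T| ≤ E * (1 - T) ^ 1 := by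
  rw [eq hT0 hT1]
  exact qf_bd (by norm_num) e0 e1 e2 e3 e4 (q := 1) (by norm_num) (by norm_num) hv h0
    h6 h5 h4 h3 h2 r1 r2 hT0 hT1

end Vale.Agent.P224.SP.K04
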