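import Vale.Agent.P224.SP.Piv.Dn

/-!
Column function f 2 0 2 0 0: kernel-checked polynomial approximant on `(0, 1)`.
-/

namespace Vale.Agent.P224.SP.K05

open Vale.Agent.P224.SP

/-- coefficient lists over `DnL` -/
def r : Q4 := ⟨
  [130500000, -159375000, -1090552500, -526770000, 1333716600, 1347203520, -22076568,
  -570314256, -340584192, -90339048, -11017812, -405216, 14472],
  [-261000000, -626400000, -159907500, 643518000, 546774300, 76485600, -73565100, -80578800,
  -51216300, -13024800, -1085400],
  [130500000, 88650000, -345656250, -246334500, 273531600, 190442340, -57932316, -33821532,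
  -540720, 1063692, 97686],
  [0, 344700000, 482580000, -516132000, -921132000, 29268000, 425628000, 142164000, 12924000]⟩

/-- reduced coefficient lists -/
def N : Q4 := ⟨
  [2610000, -4231500, -17612850, -6508500, 10781196, 9169032, 2932890, 274968, -7236],
  [-5220000, -10440000, -4033350, 2373300, 1729350, 1085400, 542700],
  [2610000, 729000, -4699125, -1303200, 1876752, -43416, -48843],
  [0, 6894000, 6894000, -6462000, -6462000]⟩

/-- approximant (times `DD`) -/
def B : List ℤ :=
  [32235028761, -643208521583, -230091222665, 167662049214, -403877433282, -138425246166,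
  694691782714, -832244213941, 554341977658, -205238480976, 32954800458]

/-- error (times `DD`) -/
def E : ℤ := 196283

/-- test list -/
def n0 : List ℤ :=
  [51538895863218750, -66299894683868750, -322476960604051250, -142515830052237500,
  193716856584709450, 195611266261175650, 37281024234319250, -12065620225850650,
  23392405177616300, -9994442916962500, -6342179417087500, 9219530783468750, -3407935664787500,
  -46935488925000, 205967502862500]

/-- test list -/
def n1 : List ℤ :=
  [-105092481024000000, -210184962048000000, -81202060984320000, 47780840079360000,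
  34816414187520000, 21851988295680000, 10925994147840000]

/-- test list -/
def n2 : List ℤ :=
  [52546240512000000, 14676708556800000, -94605882163200000, -26236881469440000,
  37784008418918400, -874079531827200, -983339473305600]

/-- test list -/
def n3 : List ℤ :=
  [0, 138794552524800000, 138794552524800000, -130097243750400000, -130097243750400000]

/-- weight list -/
def wt : List ℤ :=
  [6133843750, 1226768750, -12267687500, -2453537500, 6133843750, 1226768750]

/-- factor -/
def fac : List ℤ := [50, 20, -48, -20, -2]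

lemma e0 : eqL n0 (addL (smulL DD N.n0) (smulL (-1) (mulL B (dnL 6250 0 1 2 0 1)))) = true := by
  decide +kernel

lemma e1 : eqL n1 (smulL DD N.n1) = true := by
  decide +kernel

lemma e2 : eqL n2 (smulL DD N.n2) = true := by
  decide +kernel

lemma e3 : eqL n3 (smulL DD N.n3) = true := by
  decide +kernel

lemma e4 : eqL wt (smulL E (mulL (powZ 1) (dnL 6250 0 1 2 0 1))) = true := by
  decide +kernel

lemma hv : vanT n1 n2 n3 [] [] 0 0 = true := by
  decide +kernel

lemma h0 : chkL05 n0 n1 n2 n3 wt 0 = true := by
  decide +kernel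

lemma h6 : chkLp5 n0 n1 n2 n3 wt 0 6 1 2 128 = true := by
  decide +kernel

lemma h5 : chkLp5 n0 n1 n2 n3 wt 0 5 1 2 64 = true := by
  decide +kernel

lemma h4 : chkLp5 n0 n1 n2 n3 wt 0 4 1 2 32 = true := by
  decide +kernel

lemma h3 : chkLp5 n0 n1 n2 n3 wt 0 3 1 2 16 = true := by
  decide +kernel

lemma h2 : chkLp5 n0 n1 n2 n3 wt 0 2 1 2 8 = true := by
  decide +kernel

lemma r1 : chkN 1 1 4 4 (addL (rW5 n1 n2 n3 wt 0) (rM n0 n1 n2 n3 [] [] 0)) = true := by
  decide +kernel

lemma r2 : chkN 1 1 4 4 (addL (rW5 n1 n2 n3 wt 0)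
      (smulL (-1) (rM n0 n1 n2 n3 [] [] 0))) = true := by
  decide +kernel

lemma d0 : eqL r.n0 (mulL fac N.n0) = true := by
  decide +kernel

lemma d1 : eqL r.n1 (mulL fac N.n1) = true := by
  decide +kernel

lemma d2 : eqL r.n2 (mulL fac N.n2) = true := by
  decide +kernel

lemma d3 : eqL r.n3 (mulL fac N.n3) = true := by
  decide +kernel

lemma dd : eqL DnL (mulL fac (dnL 6250 0 1 2 0 1)) = true := by
  decide +kernel

theorem eq {T : ℝ} (h0 : 0 < T) (h1 : T < 1) :
    G4 r T / ev DnL T = qf N 6250 0 1 2 0 1 T :=
  G4_div_eq (by norm_num) d0 d1 d2 d3 dd h0 h1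

theorem bd {T : ℝ} (hT0 : 0 < T) (hT1 : T < 1) :
    |(DD : ℝ) * (G4 r T / ev DnL T) - ev B T| ≤ E * (1 - T) ^ 1 := by
  rw [eq hT0 hT1]
  exact qf_bd (by norm_num) e0 e1 e2 e3 e4 (q := 1) (by norm_num) (by norm_num) hv h0
    h6 h5 h4 h3 h2 r1 r2 hT0 hT1

end Vale.Agent.P224.SP.K05
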