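import Vale.Agent.P224.SP.Piv.Dn

/-!
Column function f 3 0 2 0 0: kernel-checked polynomial approximant on `(0, 1)`.
-/

namespace Vale.Agent.P224.SP.K06

open Vale.Agent.P224.SP

/-- coefficient lists over `DnL` -/
def r : Q4 := ⟨
  [147375000, -116025000, -1057005000, -541674000, 1272598800, 1295157600, -21260736,
  -548256432, -330771384, -88794936, -10951224, -407232, 14544],
  [-294750000, -707400000, -186075000, 713556000, 609492600, 88819200, -76030200, -81885600,
  -51546600, -13089600, -1090800],
  [147375000, 135000000, -317835000, -275670000, 229680900, 172805400, -58872132, -33204384,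
  -446940, 1068984, 98172],
  [0, 319500000, 447300000, -487620000, -866700000, 32292000, 407052000, 135828000, 12348000]⟩

/-- reduced coefficient lists -/
def N : Q4 := ⟨
  [1473750, -1749750, -8455350, -3124860, 5217846, 4412442, 1443390, 138168, -3636],
  [-2947500, -5895000, -2332350, 1230300, 887850, 545400, 272700],
  [1473750, 760500, -2067750, -610020, 918927, -21816, -24543],
  [0, 3195000, 3195000, -3087000, -3087000]⟩

/-- approximant (times `DD`) -/
def B : List ℤ :=
  [36403546369, -593605319381, -178448539503, 160709557153, -295855680256, -578968832037,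
  1923855526381, -3137861850258, 3469090402421, -2657320488315, 1348991332974, -407662721092,
  55437702728]

/-- error (times `DD`) -/
def E : ℤ := 23903

/-- test list -/
def n0 : List ℤ :=
  [29101701083984375, -26634603814290625, -155855277468979375, -68814418140390125,
  93411610683686325, 100235815756810150, 8612158471150500, 3456302507823725, 16825149283926925,
  -28485072024168750, 19287538436053125, 3099263183200000, -15343998070815625,
  10854220027478125, -2735106820831250, -234489077262500, 173242821025000]

/-- test list -/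
def n1 : List ℤ :=
  [-59341012992000000, -118682025984000000, -46956407685120000, 24769210613760000,
  17874781470720000, 10980352327680000, 5490176163840000]

/-- test list -/
def n2 : List ℤ :=
  [29670506496000000, 15310887321600000, -41629306060800000, -12281324765184000,
  18500444120678400, -439214093107200, -494115854745600]

/-- test list -/
def n3 : List ℤ :=
  [0, 64323846144000000, 64323846144000000, -62149518950400000, -62149518950400000]

/-- weight list -/
def wt : List ℤ :=
  [373484375, 74696875, -746968750, -149393750, 373484375, 74696875]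

/-- factor -/
def fac : List ℤ := [100, 40, -96, -40, -4]

lemma e0 : eqL n0 (addL (smulL DD N.n0) (smulL (-1) (mulL B (dnL 3125 0 1 2 0 1)))) = true := by
  decide +kernel

lemma e1 : eqL n1 (smulL DD N.n1) = true := by
  decide +kernel

lemma e2 : eqL n2 (smulL DD N.n2) = true := by
  decide +kernel

lemma e3 : eqL n3 (smulL DD N.n3) = true := by
  decide +kernel

lemma e4 : eqL wt (smulL E (mulL (powZ 1) (dnL 3125 0 1 2 0 1))) = true := by
  decide +kernel

lemma hv : vanT n1 n2 n3 [] [] 0 0 = true := by
  decide +kernel

lemma h0 : chkL05 n0 n1 n2 n3 wt 0 = true := by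
  decide +kernel

lemma h6 : chkLp5 n0 n1 n2 n3 wt 0 6 1 2 128 = true := by
  decide +kernel

lemma h5 : chkLp5 n0 n1 n2 n3 wt 0 5 1 2 64 = true := by
  decide +kernel

lemma h4 : chkLp5 n0 n1 n2 n3 wt 0 4 1 2 32 = true := by
  decide +kernel

lemma h3 : chkLp5 n0 n1 n2 n3 wt 0 3 1 2 16 = true := by
  decide +kernel

lemma h2 : chkLp5 n0 n1 n2 n3 wt 0 2 1 2 8 = true := by
  decide +kernel

lemma r1 : chkN 1 1 4 4 (addL (rW5 n1 n2 n3 wt 0) (rM n0 n1 n2 n3 [] [] 0)) = true := by
  decide +kernel

lemma r2 : chkN 1 1 4 4 (addL (rW5 n1 n2 n3 wt 0)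
      (smulL (-1) (rM n0 n1 n2 n3 [] [] 0))) = true := by
  decide +kernel

lemma d0 : eqL r.n0 (mulL fac N.n0) = true := by
  decide +kernel

lemma d1 : eqL r.n1 (mulL fac N.n1) = true := by
  decide +kernel

lemma d2 : eqL r.n2 (mulL fac N.n2) = true := by
  decide +kernel

lemma d3 : eqL r.n3 (mulL fac N.n3) = true := by
  decide +kernel

lemma dd : eqL DnL (mulL fac (dnL 3125 0 1 2 0 1)) = true := by
  decide +kernel

theorem eq {T : ℝ} (h0 : 0 < T) (h1 : T < 1) :
    G4 r T / ev DnL T = qf N 3125 0 1 2 0 1 T :=
  G4_div_eq (by norm_num) d0 d1 d2 d3 dd h0 h1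

theorem bd {T : ℝ} (hT0 : 0 < T) (hT1 : T < 1) :
    |(DD : ℝ) * (G4 r T / ev DnL T) - ev B T| ≤ E * (1 - T) ^ 1 := by
  rw [eq hT0 hT1]
  exact qf_bd (by norm_num) e0 e1 e2 e3 e4 (q := 1) (by norm_num) (by norm_num) hv h0
    h6 h5 h4 h3 h2 r1 r2 hT0 hT1

end Vale.Agent.P224.SP.K06
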