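import Vale.Agent.P224.SP.Piv.Dn

/-!
Column function f 4 0 2 0 0: kernel-checked polynomial approximant on `(0, 1)`.
-/

namespace Vale.Agent.P224.SP.K07

open Vale.Agent.P224.SP

/-- coefficient lists over `DnL` -/
def r : Q4 := ⟨
  [104062500, 44775000, -415102500, -289287000, 455436900, 426202920, -91147176, -156238344,
  -23856156, -9729360, -26122428, -15524928, -3276972, -198288, 5832],
  [-208125000, -507600000, -153450000, 481842000, 409238100, 49199400, -28435500, -15368400,
  -16074900, -5448600, -2715300, -2624400, -437400],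
  [104062500, 166275000, -81213750, -186754500, 10544850, 16751340, -48003912, 8710812,
  16123716, -5175108, -1552770, 192456, 39366],
  [0, 91800000, 128520000, -172908000, -265788000, 86940000, 143100000, -30132000, -10692000,
  24300000, 4860000]⟩

/-- reduced coefficient lists -/
def N : Q4 := ⟨
  [10406250, 2396250, -31583250, -18134550, 18066600, 14555772, 2413818, 2062494, 2526858,
  1066950, 113724, -2916],
  [-20812500, -46597500, -26838000, 2791800, 4207950, 1502550, 1622250, 482850, 218700, 218700],
  [10406250, 14546250, -624375, -1923075, 3723975, -1117611, -1237509, 745767, 2187, -19683],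
  [0, 9180000, 11016000, -10314000, -11664000, 2916000, 0, -2430000]⟩

/-- approximant (times `DD`) -/
def B : List ℤ :=
  [25704811411, -163460820637, -29524394808, 46303324429, -199210467011, -25798010110,
  351047737714, -601717903910, 616631859938, -437678887943, 209264311250, -60412361119,
  7931537564]

/-- error (times `DD`) -/
def E : ℤ := 2456

/-- test list -/
def n0 : List ℤ :=
  [205489108017031250, 68160710336375000, -593235396476843750, -374713697354041250,
  349174880807788750, 327354956450608650, -11254210835755650, 17159494627526050,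
  97977710398068600, -26091703328685000, 15397802207929550, 17167466513391550,
  -24087531731806250, 11211086279118750, -492188852143750, -1159996149268750, 167715950531250,
  49572109775000]

/-- test list -/
def n1 : List ℤ :=
  [-419010969600000000, -938131587072000000, -540320307609600000, 56206357954560000,
  84717223280640000, 30250327080960000, 32660206387200000, 9721054494720000, 4403012567040000,
  4403012567040000]

/-- test list -/
def n2 : List ℤ :=
  [209505484800000000, 292854693888000000, -12570329088000000, -38716613591040000,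
  74973519544320000, -22500481381171200, -24914346953932800, 15014272853606400, 44030125670400,
  -396271131033600]

/-- test list -/
def n3 : List ℤ :=
  [0, 184817811456000000, 221781373747200000, -207648246988800000, -234827336908800000,
  58706834227200000, 0, -48922361856000000]

/-- weight list -/
def wt : List ℤ :=
  [383750000, 153500000, -752150000, -307000000, 353050000, 153500000, 15350000]

/-- factor -/
def fac : List ℤ := [10, 2, -10, -2]

lemma e0 : eqL n0 (addL (smulL DD N.n0) (smulL (-1) (mulL B (dnL 6250 0 1 2 0 2)))) = true := by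
  decide +kernel

lemma e1 : eqL n1 (smulL DD N.n1) = true := by
  decide +kernel

lemma e2 : eqL n2 (smulL DD N.n2) = true := by
  decide +kernel

lemma e3 : eqL n3 (smulL DD N.n3) = true := by
  decide +kernel

lemma e4 : eqL wt (smulL E (mulL (powZ 1) (dnL 6250 0 1 2 0 2))) = true := by
  decide +kernel

lemma hv : vanT n1 n2 n3 [] [] 0 0 = true := by
  decide +kernel

lemma h0 : chkL05 n0 n1 n2 n3 wt 0 = true := by
  decide +kernel

lemma h6 : chkLp5 n0 n1 n2 n3 wt 0 6 1 2 128 = true := by
  decide +kernel

lemma h5 : chkLp5 n0 n1 n2 n3 wt 0 5 1 2 64 = true := by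
  decide +kernel

lemma h4 : chkLp5 n0 n1 n2 n3 wt 0 4 1 2 32 = true := by
  decide +kernel

lemma h3 : chkLp5 n0 n1 n2 n3 wt 0 3 1 2 16 = true := by
  decide +kernel

lemma h2 : chkLp5 n0 n1 n2 n3 wt 0 2 1 2 8 = true := by
  decide +kernel

lemma r1 : chkN 1 1 4 4 (addL (rW5 n1 n2 n3 wt 0) (rM n0 n1 n2 n3 [] [] 0)) = true := by
  decide +kernel

lemma r2 : chkN 1 1 4 4 (addL (rW5 n1 n2 n3 wt 0)
      (smulL (-1) (rM n0 n1 n2 n3 [] [] 0))) = true := by
  decide +kernel

lemma d0 : eqL r.n0 (mulL fac N.n0) = true := by
  decide +kernel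

lemma d1 : eqL r.n1 (mulL fac N.n1) = true := by
  decide +kernel

lemma d2 : eqL r.n2 (mulL fac N.n2) = true := by
  decide +kernel

lemma d3 : eqL r.n3 (mulL fac N.n3) = true := by
  decide +kernel

lemma dd : eqL DnL (mulL fac (dnL 6250 0 1 2 0 2)) = true := by
  decide +kernel

theorem eq {T : ℝ} (h0 : 0 < T) (h1 : T < 1) :
    G4 r T / ev DnL T = qf N 6250 0 1 2 0 2 T :=
  G4_div_eq (by norm_num) d0 d1 d2 d3 dd h0 h1

theorem bd {T : ℝ} (hT0 : 0 < T) (hT1 : T < 1) :
    |(DD : ℝ) * (G4 r T / ev DnL T) - ev B T| ≤ E * (1 - T) ^ 1 := by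
  rw [eq hT0 hT1]
  exact qf_bd (by norm_num) e0 e1 e2 e3 e4 (q := 1) (by norm_num) (by norm_num) hv h0
    h6 h5 h4 h3 h2 r1 r2 hT0 hT1

end Vale.Agent.P224.SP.K07
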