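import Vale.Agent.P224.SP.Piv.Dn

/-!
Column function f 3 0 2 0 1: kernel-checked polynomial approximant on `(0, 1)`.
-/

namespace Vale.Agent.P224.SP.K08

open Vale.Agent.P224.SP

/-- coefficient lists over `DnL` -/
def r : Q4 := ⟨
  [0, 37125000, -64350000, -363330000, -162396000, 462603600, 461911680, -10980576, -202708512,
  -121477464, -32312016, -3945744, -145152, 5184],
  [0, -74250000, -178200000, -41580000, 192456000, 160833600, 19051200, -26287200, -28641600,
  -18327600, -4665600, -388800],
  [0, 37125000, 14850000, -121027500, -70713000, 105259500, 67599360, -21204612, -12117384,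
  -187380, 381024, 34992],
  [0, 0, 118800000, 166320000, -179928000, -320328000, 11232000, 149472000, 49896000, 4536000]⟩

/-- reduced coefficient lists -/
def N : Q4 := ⟨
  [0, 371250, -792000, -2960100, -1051740, 1903086, 1632492, 525060, 49248, -1296],
  [0, -742500, -1485000, -534600, 415800, 305100, 194400, 97200],
  [0, 371250, 0, -853875, -217080, 334557, -7776, -8748],
  [0, 0, 1188000, 1188000, -1134000, -1134000]⟩

/-- approximant (times `DD`) -/
def B : List ℤ :=
  [2531, 9169624257, -222431471216, -90729757672, 67686296069, -153194535421, -54797124230,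
  296757949794, -407210490880, 336583657659, -176417940264, 54100160831, -7408722434]

/-- error (times `DD`) -/
def E : ℤ := 2571

/-- test list -/
def n0 : List ℤ :=
  [-39546875, 7330974301528125, -12641504771831250, -53891821598326250, -23139201334208000,
  34162671450553700, 35044805084926400, 6032113019139500, -1555896355159025, 4553280496676800,
  -3251573855062500, -38011023190625, 1934569816256250, -1440846893740625, 370462921831250,
  30149456959375, -23152257606250]

/-- test list -/
def n1 : List ℤ :=
  [0, -14948499456000000, -29896998912000000, -10762919608320000, 8371159695360000,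
  6142474321920000, 3913788948480000, 1956894474240000]

/-- test list -/
def n2 : List ℤ :=
  [0, 7474249728000000, 0, -17190774374400000, -4370397659136000, 6735522063974400,
  -156551557939200, -176120502681600]

/-- test list -/
def n3 : List ℤ :=
  [0, 0, 23917599129600000, 23917599129600000, -22830435532800000, -22830435532800000]

/-- weight list -/
def wt : List ℤ :=
  [40171875, 8034375, -80343750, -16068750, 40171875, 8034375]

/-- factor -/
def fac : List ℤ := [100, 40, -96, -40, -4]

lemma e0 : eqL n0 (addL (smulL DD N.n0) (smulL (-1) (mulL B (dnL 3125 0 1 2 0 1)))) = true := by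
  decide +kernel

lemma e1 : eqL n1 (smulL DD N.n1) = true := by
  decide +kernel

lemma e2 : eqL n2 (smulL DD N.n2) = true := by
  decide +kernel

lemma e3 : eqL n3 (smulL DD N.n3) = true := by
  decide +kernel

lemma e4 : eqL wt (smulL E (mulL (powZ 1) (dnL 3125 0 1 2 0 1))) = true := by
  decide +kernel

lemma hv : vanT n1 n2 n3 [] [] 0 0 = true := by
  decide +kernel

lemma h0 : chkL05 n0 n1 n2 n3 wt 0 = true := by
  decide +kernel

lemma h6 : chkLp5 n0 n1 n2 n3 wt 0 6 1 2 128 = true := by
  decide +kernel

lemma h5 : chkLp5 n0 n1 n2 n3 wt 0 5 1 2 64 = true := by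
  decide +kernel

lemma h4 : chkLp5 n0 n1 n2 n3 wt 0 4 1 2 32 = true := by
  decide +kernel

lemma h3 : chkLp5 n0 n1 n2 n3 wt 0 3 1 2 16 = true := by
  decide +kernel

lemma h2 : chkLp5 n0 n1 n2 n3 wt 0 2 1 2 8 = true := by
  decide +kernel

lemma r1 : chkN 1 1 4 4 (addL (rW5 n1 n2 n3 wt 0) (rM n0 n1 n2 n3 [] [] 0)) = true := by
  decide +kernel

lemma r2 : chkN 1 1 4 4 (addL (rW5 n1 n2 n3 wt 0)
      (smulL (-1) (rM n0 n1 n2 n3 [] [] 0))) = true := by
  decide +kernel

lemma d0 : eqL r.n0 (mulL fac N.n0) = true := by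
  decide +kernel

lemma d1 : eqL r.n1 (mulL fac N.n1) = true := by
  decide +kernel

lemma d2 : eqL r.n2 (mulL fac N.n2) = true := by
  decide +kernel

lemma d3 : eqL r.n3 (mulL fac N.n3) = true := by
  decide +kernel

lemma dd : eqL DnL (mulL fac (dnL 3125 0 1 2 0 1)) = true := by
  decide +kernel

theorem eq {T : ℝ} (h0 : 0 < T) (h1 : T < 1) :
    G4 r T / ev DnL T = qf N 3125 0 1 2 0 1 T :=
  G4_div_eq (by norm_num) d0 d1 d2 d3 dd h0 h1

theorem bd {T : ℝ} (hT0 : 0 < T) (hT1 : T < 1) :
    |(DD : ℝ) * (G4 r T / ev DnL T) - ev B T| ≤ E * (1 - T) ^ 1 := by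
  rw [eq hT0 hT1]
  exact qf_bd (by norm_num) e0 e1 e2 e3 e4 (q := 1) (by norm_num) (by norm_num) hv h0
    h6 h5 h4 h3 h2 r1 r2 hT0 hT1

end Vale.Agent.P224.SP.K08
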