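import Vale.Agent.P224.SP.Piv.Dn

/-!
Column function f 4 0 2 0 1: kernel-checked polynomial approximant on `(0, 1)`.
-/

namespace Vale.Agent.P224.SP.K09

open Vale.Agent.P224.SP

/-- coefficient lists over `DnL` -/
def r : Q4 := ⟨
  [0, 37125000, -39600000, -297630000, -138816000, 388263600, 388860480, -12643776, -179690112,
  -111275064, -30609216, -3844944, -145152, 5184],
  [0, -74250000, -178200000, -41580000, 192456000, 160833600, 19051200, -26287200, -28641600,
  -18327600, -4665600, -388800],
  [0, 37125000, 28350000, -94027500, -69093000, 79339500, 51852960, -22371012, -11490984,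
  -100980, 381024, 34992],
  [0, 0, 91800000, 128520000, -148608000, -260928000, 14040000, 128520000, 42768000, 3888000]⟩

/-- reduced coefficient lists -/
def N : Q4 := ⟨
  [0, 371250, -544500, -2402100, -801540, 1694286, 1458792, 499860, 49248, -1296],
  [0, -742500, -1485000, -534600, 415800, 305100, 194400, 97200],
  [0, 371250, 135000, -637875, -157680, 312957, -7776, -8748],
  [0, 0, 918000, 918000, -972000, -972000]⟩

/-- approximant (times `DD`) -/
def B : List ℤ :=
  [2616, 9169599302, -171035216887, -70201110051, 80412681942, -145125607038, -68647356000,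
  313977060030, -423989937028, 348642084880, -182326116556, 55847748002, -7643096444]

/-- error (times `DD`) -/
def E : ℤ := 2657

/-- test list -/
def n0 : List ℤ :=
  [-40875000, 7330974689856250, -8461737624753125, -43942237962816875, -18043319213055500,
  30814563254437450, 32317484907195775, 5919046619271375, -1598641360112150, 4660244620083050,
  -3315520845100000, -64613322787500, 2005272188237500, -1487703261825000, 381837455250000,
  31216154181250, -23884676387500]

/-- test list -/
def n1 : List ℤ :=
  [0, -14948499456000000, -29896998912000000, -10762919608320000, 8371159695360000,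
  6142474321920000, 3913788948480000, 1956894474240000]

/-- test list -/
def n2 : List ℤ :=
  [0, 7474249728000000, 2717908992000000, -12842119987200000, -3174517702656000,
  6300656625254400, -156551557939200, -176120502681600]

/-- test list -/
def n3 : List ℤ :=
  [0, 0, 18481781145600000, 18481781145600000, -19568944742400000, -19568944742400000]

/-- weight list -/
def wt : List ℤ :=
  [41515625, 8303125, -83031250, -16606250, 41515625, 8303125]

/-- factor -/
def fac : List ℤ := [100, 40, -96, -40, -4]

lemma e0 : eqL n0 (addL (smulL DD N.n0) (smulL (-1) (mulL B (dnL 3125 0 1 2 0 1)))) = true := by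
  decide +kernel

lemma e1 : eqL n1 (smulL DD N.n1) = true := by
  decide +kernel

lemma e2 : eqL n2 (smulL DD N.n2) = true := by
  decide +kernel

lemma e3 : eqL n3 (smulL DD N.n3) = true := by
  decide +kernel

lemma e4 : eqL wt (smulL E (mulL (powZ 1) (dnL 3125 0 1 2 0 1))) = true := by
  decide +kernel

lemma hv : vanT n1 n2 n3 [] [] 0 0 = true := by
  decide +kernel

lemma h0 : chkL05 n0 n1 n2 n3 wt 0 = true := by
  decide +kernel

lemma h6 : chkLp5 n0 n1 n2 n3 wt 0 6 1 2 128 = true := by
  decide +kernel

lemma h5 : chkLp5 n0 n1 n2 n3 wt 0 5 1 2 64 = true := by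
  decide +kernel

lemma h4 : chkLp5 n0 n1 n2 n3 wt 0 4 1 2 32 = true := by
  decide +kernel

lemma h3 : chkLp5 n0 n1 n2 n3 wt 0 3 1 2 16 = true := by
  decide +kernel

lemma h2 : chkLp5 n0 n1 n2 n3 wt 0 2 1 2 8 = true := by
  decide +kernel

lemma r1 : chkN 1 1 4 4 (addL (rW5 n1 n2 n3 wt 0) (rM n0 n1 n2 n3 [] [] 0)) = true := by
  decide +kernel

lemma r2 : chkN 1 1 4 4 (addL (rW5 n1 n2 n3 wt 0)
      (smulL (-1) (rM n0 n1 n2 n3 [] [] 0))) = true := by
  decide +kernel

lemma d0 : eqL r.n0 (mulL fac N.n0) = true := by
  decide +kernel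

lemma d1 : eqL r.n1 (mulL fac N.n1) = true := by
  decide +kernel

lemma d2 : eqL r.n2 (mulL fac N.n2) = true := by
  decide +kernel

lemma d3 : eqL r.n3 (mulL fac N.n3) = true := by
  decide +kernel

lemma dd : eqL DnL (mulL fac (dnL 3125 0 1 2 0 1)) = true := by
  decide +kernel

theorem eq {T : ℝ} (h0 : 0 < T) (h1 : T < 1) :
    G4 r T / ev DnL T = qf N 3125 0 1 2 0 1 T :=
  G4_div_eq (by norm_num) d0 d1 d2 d3 dd h0 h1

theorem bd {T : ℝ} (hT0 : 0 < T) (hT1 : T < 1) :
    |(DD : ℝ) * (G4 r T / ev DnL T) - ev B T| ≤ E * (1 - T) ^ 1 := by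
  rw [eq hT0 hT1]
  exact qf_bd (by norm_num) e0 e1 e2 e3 e4 (q := 1) (by norm_num) (by norm_num) hv h0
    h6 h5 h4 h3 h2 r1 r2 hT0 hT1

end Vale.Agent.P224.SP.K09
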