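import Vale.Agent.P224.SP.Piv.Dn

/-!
Column function fp 2 0 2 0 0: kernel-checked polynomial approximant on `(0, 1)`.
-/

namespace Vale.Agent.P224.SP.K10

open Vale.Agent.P224.SP

/-- coefficient lists over `DnL` -/
def r : Q4 := ⟨
  [-263775000, -889305000, -419775000, 1237690500, 1606830840, 197914068, -891052872,
  -704194644, -217867872, -28786812, -984096, 57888],
  [-104400000, -267615000, -234351000, -58929300, 62524800, -12011400, -185182200, -160841700,
  -41245200, -3256200],
  [-120150000, -300712500, 42106500, 509624100, 87726780, -234495684, -63182484, 10662588,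
  4754052, 390744],
  [344700000, 620460000, -445356000, -1127772000, -5148000, 556596000, 168012000, 12924000]⟩

/-- reduced coefficient lists -/
def N : Q4 := ⟨
  [-13188750, -41827500, -12623250, 64409175, 67459707, -3596238, -43833396, -26443053,
  -5604783, -318384, 14472],
  [-5220000, -12336750, -9250200, -1096425, 3345525, -1269675, -9005175, -6241050, -814050],
  [-6007500, -13834125, 4872150, 24506775, -515016, -11621781, -834768, 700083, 97686],
  [17235000, 27576000, -27783000, -50832000, 9909000, 25848000, 3231000]⟩

/-- approximant (times `DD`) -/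
def B : List ℤ :=
  [-643244013588, -458090374069, 465187868172, -1293742695206, -2228353083123, 8646489702610,
  -14111737691072, 14215678395883, -8987169003134, 3268107088354, -521588330123]

/-- error (times `DD`) -/
def E : ℤ := 4347419

/-- test list -/
def n0 : List ℤ :=
  [-215271170462437500, -735955678227671875, -318774121939578125, 1152392439840244375,
  1637685929822216900, -490922344351402100, -1211265981485180700, 455718092996703025,
  -681276396134981725, -397310044471007800, 974806540628414275, -450767557012484375,
  -282549409168518750, 339131051238225000, -67623713396006250, -30467481483440625,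
  7716764196871875, 1629963531634375]

/-- test list -/
def n1 : List ℤ :=
  [-105092481024000000, -248371583385600000, -186231124131840000, -22073950863360000,
  67354314670080000, -25561934069760000, -181298119311360000, -125648932700160000,
  -16388991221760000]

/-- test list -/
def n2 : List ℤ :=
  [-120946950144000000, -278517723955200000, 98089335521280000, 493386549166080000,
  -10368641610547200, -233977356170035200, -16806099655065600, 14094532450713600,
  1966678946611200]

/-- test list -/
def n3 : List ℤ :=
  [346986381312000000, 555178210099200000, -559345670553600000, -1023383332454400000,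
  199494520012800000, 520388975001600000, 65048621875200000]

/-- weight list -/
def wt : List ℤ :=
  [339642109375, 135856843750, -1005340643750, -407570531250, 978169275000, 407570531250,
  -298885056250, -135856843750, -13585684375]

/-- factor -/
def fac : List ℤ := [20, 4]

lemma e0 : eqL n0 (addL (smulL DD N.n0) (smulL (-1) (mulL B (dnL 3125 0 2 3 0 2)))) = true := by
  decide +kernel

lemma e1 : eqL n1 (smulL DD N.n1) = true := by
  decide +kernel

lemma e2 : eqL n2 (smulL DD N.n2) = true := by
  decide +kernel

lemma e3 : eqL n3 (smulL DD N.n3) = true := by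
  decide +kernel

lemma e4 : eqL wt (smulL E (mulL (powZ 1) (dnL 3125 0 2 3 0 2))) = true := by
  decide +kernel

lemma hv : vanT n1 n2 n3 [] [] 0 0 = true := by
  decide +kernel

lemma h0 : chkL05 n0 n1 n2 n3 wt 0 = true := by
  decide +kernel

lemma h6 : chkLp5 n0 n1 n2 n3 wt 0 6 1 2 128 = true := by
  decide +kernel

lemma h5 : chkLp5 n0 n1 n2 n3 wt 0 5 1 2 64 = true := by
  decide +kernel

lemma h4 : chkLp5 n0 n1 n2 n3 wt 0 4 1 2 32 = true := by
  decide +kernel

lemma h3 : chkLp5 n0 n1 n2 n3 wt 0 3 1 2 16 = true := by
  decide +kernel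

lemma h2 : chkLp5 n0 n1 n2 n3 wt 0 2 1 2 8 = true := by
  decide +kernel

lemma r1 : chkN 1 1 4 4 (addL (rW5 n1 n2 n3 wt 0) (rM n0 n1 n2 n3 [] [] 0)) = true := by
  decide +kernel

lemma r2 : chkN 1 1 4 4 (addL (rW5 n1 n2 n3 wt 0)
      (smulL (-1) (rM n0 n1 n2 n3 [] [] 0))) = true := by
  decide +kernel

lemma d0 : eqL r.n0 (mulL fac N.n0) = true := by
  decide +kernel

lemma d1 : eqL r.n1 (mulL fac N.n1) = true := by
  decide +kernel

lemma d2 : eqL r.n2 (mulL fac N.n2) = true := by
  decide +kernel

lemma d3 : eqL r.n3 (mulL fac N.n3) = true := by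
  decide +kernel

lemma dd : eqL DnL (mulL fac (dnL 3125 0 2 3 0 2)) = true := by
  decide +kernel

theorem eq {T : ℝ} (h0 : 0 < T) (h1 : T < 1) :
    G4 r T / ev DnL T = qf N 3125 0 2 3 0 2 T :=
  G4_div_eq (by norm_num) d0 d1 d2 d3 dd h0 h1

theorem bd {T : ℝ} (hT0 : 0 < T) (hT1 : T < 1) :
    |(DD : ℝ) * (G4 r T / ev DnL T) - ev B T| ≤ E * (1 - T) ^ 1 := by
  rw [eq hT0 hT1]
  exact qf_bd (by norm_num) e0 e1 e2 e3 e4 (q := 1) (by norm_num) (by norm_num) hv h0
    h6 h5 h4 h3 h2 r1 r2 hT0 hT1

end Vale.Agent.P224.SP.K10
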