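import Vale.Agent.P224.SP.Piv.Dn

/-!
Column function fp 3 0 2 0 0: kernel-checked polynomial approximant on `(0, 1)`.
-/

namespace Vale.Agent.P224.SP.K11

open Vale.Agent.P224.SP

/-- coefficient lists over `DnL` -/
def r : Q4 := ⟨
  [-233925000, -799365000, -353370000, 1199445600, 1553711760, 220226976, -843723984,
  -684990528, -215015784, -28687224, -988992, 58176],
  [-117900000, -313200000, -293202000, -97392600, 46533600, -17596800, -187160400, -161717400,
  -41450400, -3272400],
  [-100800000, -250380000, 81414000, 514760400, 90182520, -228305088, -61167888, 10908576,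
  4777704, 392688],
  [319500000, 575100000, -440460000, -1087740000, -8460000, 531396000, 160524000, 12348000]⟩

/-- reduced coefficient lists -/
def N : Q4 := ⟨
  [-11696250, -37629000, -10142700, 62000820, 65285424, -2045736, -41777052, -25894116,
  -5571966, -319968, 14544],
  [-5895000, -14481000, -11763900, -2516850, 2830050, -1445850, -9068850, -6272100, -818100],
  [-5040000, -11511000, 6372900, 24463440, -383562, -11338542, -790686, 703566, 98172],
  [15975000, 25560000, -27135000, -48960000, 9369000, 24696000, 3087000]⟩

/-- approximant (times `DD`) -/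
def B : List ℤ :=
  [-593608301613, -356968582626, 488229851687, -1282056381615, -2156565995511, 8405752004509,
  -13709639492913, 13798002374157, -8716324239442, 3167669112706, -505316100891]

/-- error (times `DD`) -/
def E : ℤ := 4228056

/-- test list -/
def n0 : List ℤ :=
  [-189100966604484375, -664757754530221875, -275645052665252500, 1123499557923103375,
  1611172567631182050, -448424698467780575, -1176031062802972150, 435443350203279675,
  -661981712014593450, -388940555672780600, 946022142890211050, -435886948453778125,
  -274759319904237500, 328751546809921875, -65423650490375000, -29539389596628125,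
  7471274990921875, 1579112815284375]

/-- test list -/
def n1 : List ℤ :=
  [-118682025984000000, -291541037875200000, -236838589562880000, -50670883307520000,
  56976432168960000, -29108805304320000, -182580066385920000, -126274051768320000,
  -16470528491520000]

/-- test list -/
def n2 : List ℤ :=
  [-101468602368000000, -231747040051200000, 128303423815680000, 492514100379648000,
  -7722123028070400, -228275001910886400, -15918611772211200, 14164654502707200,
  1976463418982400]

/-- test list -/
def n3 : List ℤ :=
  [321619230720000000, 514590769152000000, -546299707392000000, -985694994432000000,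
  188622884044800000, 497196151603200000, 62149518950400000]

/-- weight list -/
def wt : List ℤ :=
  [330316875000, 132126750000, -977737950000, -396380250000, 951312600000, 396380250000,
  -290678850000, -132126750000, -13212675000]

/-- factor -/
def fac : List ℤ := [20, 4]

lemma e0 : eqL n0 (addL (smulL DD N.n0) (smulL (-1) (mulL B (dnL 3125 0 2 3 0 2)))) = true := by
  decide +kernel

lemma e1 : eqL n1 (smulL DD N.n1) = true := by
  decide +kernel

lemma e2 : eqL n2 (smulL DD N.n2) = true := by
  decide +kernel

lemma e3 : eqL n3 (smulL DD N.n3) = true := by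
  decide +kernel

lemma e4 : eqL wt (smulL E (mulL (powZ 1) (dnL 3125 0 2 3 0 2))) = true := by
  decide +kernel

lemma hv : vanT n1 n2 n3 [] [] 0 0 = true := by
  decide +kernel

lemma h0 : chkL05 n0 n1 n2 n3 wt 0 = true := by
  decide +kernel

lemma h6 : chkLp5 n0 n1 n2 n3 wt 0 6 1 2 128 = true := by
  decide +kernel

lemma h5 : chkLp5 n0 n1 n2 n3 wt 0 5 1 2 64 = true := by
  decide +kernel

lemma h4 : chkLp5 n0 n1 n2 n3 wt 0 4 1 2 32 = true := by
  decide +kernel

lemma h3 : chkLp5 n0 n1 n2 n3 wt 0 3 1 2 16 = true := by
  decide +kernel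

lemma h2 : chkLp5 n0 n1 n2 n3 wt 0 2 1 2 8 = true := by
  decide +kernel

lemma r1 : chkN 1 1 4 4 (addL (rW5 n1 n2 n3 wt 0) (rM n0 n1 n2 n3 [] [] 0)) = true := by
  decide +kernel

lemma r2 : chkN 1 1 4 4 (addL (rW5 n1 n2 n3 wt 0)
      (smulL (-1) (rM n0 n1 n2 n3 [] [] 0))) = true := by
  decide +kernel

lemma d0 : eqL r.n0 (mulL fac N.n0) = true := by
  decide +kernel

lemma d1 : eqL r.n1 (mulL fac N.n1) = true := by
  decide +kernel

lemma d2 : eqL r.n2 (mulL fac N.n2) = true := by
  decide +kernel

lemma d3 : eqL r.n3 (mulL fac N.n3) = true := by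
  decide +kernel

lemma dd : eqL DnL (mulL fac (dnL 3125 0 2 3 0 2)) = true := by
  decide +kernel

theorem eq {T : ℝ} (h0 : 0 < T) (h1 : T < 1) :
    G4 r T / ev DnL T = qf N 3125 0 2 3 0 2 T :=
  G4_div_eq (by norm_num) d0 d1 d2 d3 dd h0 h1

theorem bd {T : ℝ} (hT0 : 0 < T) (hT1 : T < 1) :
    |(DD : ℝ) * (G4 r T / ev DnL T) - ev B T| ≤ E * (1 - T) ^ 1 := by
  rw [eq hT0 hT1]
  exact qf_bd (by norm_num) e0 e1 e2 e3 e4 (q := 1) (by norm_num) (by norm_num) hv h0
    h6 h5 h4 h3 h2 r1 r2 hT0 hT1

end Vale.Agent.P224.SP.K11
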