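import Vale.Agent.P224.SP.Piv.Dn

/-!
Column function fp 4 0 2 0 1: kernel-checked polynomial approximant on `(0, 1)`.
-/

namespace Vale.Agent.P224.SP.K14

open Vale.Agent.P224.SP

/-- coefficient lists over `DnL` -/
def r : Q4 := ⟨
  [37125000, -108900000, -538335000, -225486000, 807327000, 933828480, 97574760, -447016176,
  -343108512, -105272640, -13953168, -497664, 25920],
  [-74250000, -207900000, -109890000, 146124000, 164430000, 49960800, -28782000, -94716000,
  -75924000, -19440000, -1555200],
  [37125000, -2700000, -175972500, -48276000, 243202500, 74889360, -101388780, -32015952,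
  3903876, 2083968, 174960],
  [0, 183600000, 293760000, -300672000, -612576000, 8208000, 295488000, 93312000, 7776000]⟩

/-- reduced coefficient lists -/
def N : Q4 := ⟨
  [1856250, -5816250, -25753500, -6123600, 41591070, 38373210, -2795904, -21791628, -12797100,
  -2704212, -156816, 6480],
  [-3712500, -9652500, -3564000, 8019000, 6617700, 1174500, -1674000, -4401000, -2916000,
  -388800],
  [1856250, -506250, -8697375, -674325, 12294990, 1285470, -5326533, -535491, 302292, 43740],
  [0, 9180000, 12852000, -17604000, -27108000, 5832000, 13608000, 1944000]⟩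

/-- approximant (times `DD`) -/
def B : List ℤ :=
  [9170303416, -342131261164, -209001450218, 301673963526, -583879186321, -1041596322554,
  4044473547683, -7063349434543, 8117926411087, -6365082653354, 3279083815373, -1000588674545,
  136980927278]

/-- error (times `DD`) -/
def E : ℤ := 63530

/-- test list -/
def n0 : List ℤ :=
  [36654818685625000, -91370576229687500, -463619962990281250, -163712997440282500,
  750628733215684625, 911753627678535125, -227524262245479300, -551649854953055725,
  131644521987330000, -373564607486669150, -8191274275016575, 381097153926216000,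
  -357566295156421875, 22798559766353125, 169619602023081250, -105807291017765625,
  9073888007506250, 10021940638900000, -1581879767228125, -428065397743750]

/-- test list -/
def n1 : List ℤ :=
  [-74742497280000000, -194330492928000000, -71752797388800000, 161443794124800000,
  133231898787840000, 23645808230400000, -33702071500800000, -88603833139200000,
  -58706834227200000, -7827577896960000]

/-- test list -/
def n2 : List ℤ :=
  [37371248640000000, -10192158720000000, -175101286809600000, -13575955415040000,
  247530843537408000, 25879929421824000, -107237273606553600, -10780857807667200,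
  6085941814886400, 880602513408000]

/-- test list -/
def n3 : List ℤ :=
  [0, 184817811456000000, 258744936038400000, -354415332556800000, -545756125593600000,
  117413668454400000, 273965226393600000, 39137889484800000]

/-- weight list -/
def wt : List ℤ :=
  [4963281250, 1985312500, -14691312500, -5955937500, 14294250000, 5955937500, -4367687500,
  -1985312500, -198531250]

/-- factor -/
def fac : List ℤ := [20, 4]

lemma e0 : eqL n0 (addL (smulL DD N.n0) (smulL (-1) (mulL B (dnL 3125 0 2 3 0 2)))) = true := by
  decide +kernel

lemma e1 : eqL n1 (smulL DD N.n1) = true := by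
  decide +kernel

lemma e2 : eqL n2 (smulL DD N.n2) = true := by
  decide +kernel

lemma e3 : eqL n3 (smulL DD N.n3) = true := by
  decide +kernel

lemma e4 : eqL wt (smulL E (mulL (powZ 1) (dnL 3125 0 2 3 0 2))) = true := by
  decide +kernel

lemma hv : vanT n1 n2 n3 [] [] 0 0 = true := by
  decide +kernel

lemma h0 : chkL05 n0 n1 n2 n3 wt 0 = true := by
  decide +kernel

lemma h6 : chkLp5 n0 n1 n2 n3 wt 0 6 1 2 128 = true := by
  decide +kernel

lemma h5 : chkLp5 n0 n1 n2 n3 wt 0 5 1 2 64 = true := by
  decide +kernel

lemma h4 : chkLp5 n0 n1 n2 n3 wt 0 4 1 2 32 = true := by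
  decide +kernel

lemma h3 : chkLp5 n0 n1 n2 n3 wt 0 3 1 2 16 = true := by
  decide +kernel

lemma h2 : chkLp5 n0 n1 n2 n3 wt 0 2 1 2 8 = true := by
  decide +kernel

lemma r1 : chkN 1 1 4 4 (addL (rW5 n1 n2 n3 wt 0) (rM n0 n1 n2 n3 [] [] 0)) = true := by
  decide +kernel

lemma r2 : chkN 1 1 4 4 (addL (rW5 n1 n2 n3 wt 0)
      (smulL (-1) (rM n0 n1 n2 n3 [] [] 0))) = true := by
  decide +kernel

lemma d0 : eqL r.n0 (mulL fac N.n0) = true := by
  decide +kernel

lemma d1 : eqL r.n1 (mulL fac N.n1) = true := by
  decide +kernel

lemma d2 : eqL r.n2 (mulL fac N.n2) = true := by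
  decide +kernel

lemma d3 : eqL r.n3 (mulL fac N.n3) = true := by
  decide +kernel

lemma dd : eqL DnL (mulL fac (dnL 3125 0 2 3 0 2)) = true := by
  decide +kernel

theorem eq {T : ℝ} (h0 : 0 < T) (h1 : T < 1) :
    G4 r T / ev DnL T = qf N 3125 0 2 3 0 2 T :=
  G4_div_eq (by norm_num) d0 d1 d2 d3 dd h0 h1

theorem bd {T : ℝ} (hT0 : 0 < T) (hT1 : T < 1) :
    |(DD : ℝ) * (G4 r T / ev DnL T) - ev B T| ≤ E * (1 - T) ^ 1 := by
  rw [eq hT0 hT1]
  exact qf_bd (by norm_num) e0 e1 e2 e3 e4 (q := 1) (by norm_num) (by norm_num) hv h0
    h6 h5 h4 h3 h2 r1 r2 hT0 hT1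

end Vale.Agent.P224.SP.K14
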