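import Vale.Agent.P224.SP.Piv.Dn

/-!
Column function z 0 4 0 0: kernel-checked polynomial approximant on `(0, 1)`.
-/

namespace Vale.Agent.P224.SP.K15

open Vale.Agent.P224.SP

/-- coefficient lists over `DnL` -/
def r : Q4 := ⟨
  [-29700000, -12030000, 45073500, 53680800, -1385460, -19017912, -57979704, -41016624,
  55388952, 19824000, -13278132, -1915296, 1858044, 476328, 22800, -1296],
  [81900000, 143715000, -61744500, -254080800, -114814200, 86533200, 81930600, 14294400,
  18662400, 9624600, -6537300, -151200, 603000, 64800],
  [-29700000, -55477500, 1142250, 114987450, 91143480, -93406944, -27667968, 17836968,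
  -19481844, -1487832, 2055222, 138366, -72900, -8748],
  [-22500000, 13500000, 90900000, -77040000, -95400000, 109800000, 6120000, -42480000,
  22860000, -3780000, -1980000]⟩

/-- reduced coefficient lists -/
def N : Q4 := ⟨
  [-2970000, -6549000, -5498850, -6450, 4458954, 7227966, 4538286, -1161318, -720042, 475458,
  192300, 13344, -648],
  [8190000, 29113500, 41315850, 29854350, 11644200, 3437100, 1422450, -401250, -396900, 204300,
  32400],
  [-2970000, -10893750, -17712525, -13253550, -1935777, -1330458, -1349445, 540126, 99801,
  -23328, -4374],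
  [-2250000, -2700000, 5580000, 4410000, -4410000, -720000, 1080000, -990000]⟩

/-- approximant (times `DD`) -/
def B : List ℤ :=
  [-88082033075, 90991503594, -13772621051, 249238250853, -339110409619, -1251299817995,
  6280937009460, -14956617055756, 24141369931274, -28336338769359, 24304276480268,
  -14852030271170, 6121676114411, -1524348724167, 173110412332]

/-- error (times `DD`) -/
def E : ℤ := 152116

/-- test list -/
def n0 : List ℤ :=
  [-46031180156031250, -99272627466268750, -98539390374826250, -60108761555615000,
  -6354611411404450, 354215864839580950, -90413505026843800, -91407666922238100,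
  477587795882776100, -652270925617742650, 185618876630622500, 606798614016864800,
  -764051671883267850, 166652845863181250, 313391958575400000, -246365736733837500,
  33329769239506250, 22840333653150000, -4538041475931250, -1081940077075000]

/-- test list -/
def n1 : List ℤ :=
  [164886478848000000, 586132173619200000, 831797927608320000, 601047454187520000,
  234428710256640000, 69197962936320000, 28637701079040000, -8078229504000000,
  -7990652436480000, 4113102274560000, 652298158080000]

/-- test list -/
def n2 : List ℤ :=
  [-59793997824000000, -219320156160000000, -356600229396480000, -266829205340160000,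
  -38972338628198400, -26785657493913600, -27167916294144000, 10874172683059200,
  2009259520819200, -469654673817600, -88060251340800]

/-- test list -/
def n3 : List ℤ :=
  [-45298483200000000, -54358179840000000, 112340238336000000, 88785027072000000,
  -88785027072000000, -14495514624000000, 21743271936000000, -19931332608000000]

/-- weight list -/
def wt : List ℤ :=
  [23768125000, 33275375000, -37078275000, -65600025000, 2852175000, 31373925000, 10457975000,
  950725000]

/-- factor -/
def fac : List ℤ := [10, -18, 6, 2]

lemma e0 : eqL n0 (addL (smulL DD N.n0) (smulL (-1) (mulL B (dnL 6250 0 0 3 0 2)))) = true := by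
  decide +kernel

lemma e1 : eqL n1 (smulL DD N.n1) = true := by
  decide +kernel

lemma e2 : eqL n2 (smulL DD N.n2) = true := by
  decide +kernel

lemma e3 : eqL n3 (smulL DD N.n3) = true := by
  decide +kernel

lemma e4 : eqL wt (smulL E (mulL (powZ 2) (dnL 6250 0 0 3 0 2))) = true := by
  decide +kernel

lemma hv : vanT n1 n2 n3 [] [] 0 0 = true := by
  decide +kernel

lemma h0 : chkL05 n0 n1 n2 n3 wt 0 = true := by
  decide +kernel

lemma h6 : chkLp5 n0 n1 n2 n3 wt 0 6 1 2 128 = true := by
  decide +kernel

lemma h5 : chkLp5 n0 n1 n2 n3 wt 0 5 1 2 64 = true := by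
  decide +kernel

lemma h4 : chkLp5 n0 n1 n2 n3 wt 0 4 1 2 32 = true := by
  decide +kernel

lemma h3 : chkLp5 n0 n1 n2 n3 wt 0 3 1 2 16 = true := by
  decide +kernel

lemma h2 : chkLp5 n0 n1 n2 n3 wt 0 2 1 2 8 = true := by
  decide +kernel

lemma r1 : chkN 1 1 4 4 (addL (rW5 n1 n2 n3 wt 0) (rM n0 n1 n2 n3 [] [] 0)) = true := by
  decide +kernel

lemma r2 : chkN 1 1 4 4 (addL (rW5 n1 n2 n3 wt 0)
      (smulL (-1) (rM n0 n1 n2 n3 [] [] 0))) = true := by
  decide +kernel

lemma d0 : eqL r.n0 (mulL fac N.n0) = true := by
  decide +kernel

lemma d1 : eqL r.n1 (mulL fac N.n1) = true := by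
  decide +kernel

lemma d2 : eqL r.n2 (mulL fac N.n2) = true := by
  decide +kernel

lemma d3 : eqL r.n3 (mulL fac N.n3) = true := by
  decide +kernel

lemma dd : eqL DnL (mulL fac (dnL 6250 0 0 3 0 2)) = true := by
  decide +kernel

theorem eq {T : ℝ} (h0 : 0 < T) (h1 : T < 1) :
    G4 r T / ev DnL T = qf N 6250 0 0 3 0 2 T :=
  G4_div_eq (by norm_num) d0 d1 d2 d3 dd h0 h1

theorem bd {T : ℝ} (hT0 : 0 < T) (hT1 : T < 1) :
    |(DD : ℝ) * (G4 r T / ev DnL T) - ev B T| ≤ E * (1 - T) ^ 2 := by
  rw [eq hT0 hT1]
  exact qf_bd (by norm_num) e0 e1 e2 e3 e4 (q := 1) (by norm_num) (by norm_num) hv h0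
    h6 h5 h4 h3 h2 r1 r2 hT0 hT1

end Vale.Agent.P224.SP.K15
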