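import Vale.Agent.P224.SP.Piv.Dn

/-!
Column function z 0 4 0 1: kernel-checked polynomial approximant on `(0, 1)`.
-/

namespace Vale.Agent.P224.SP.K16

open Vale.Agent.P224.SP

/-- coefficient lists over `DnL` -/
def r : Q4 := ⟨
  [44625000, -33450000, -58440000, 167553000, 1175400, -388846200, 6130272, 358851792,
  42323832, -101411136, -36016128, -2691384, 205752, -6072, -4128],
  [-130500000, -175575000, 197850000, 332508000, -29656200, -163353600, -10981800, 33002400,
  -27877800, -28101000, 1075800, 1519200, 90000],
  [54000000, 48187500, -36705000, -65628750, -95239800, 22439700, 36681264, 17186304, 19044048,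
  1810272, -1391688, -355986, -27864],
  [22500000, 13500000, -168300000, -12420000, 311220000, 10980000, -203580000, -38700000,
  34200000, 26640000, 3960000]⟩

/-- reduced coefficient lists -/
def N : Q4 := ⟨
  [4462500, 4687500, -84000, 12899100, 22448820, -6199404, -26595012, -12755964, -1531464,
  74832, 3156, -2064],
  [-13050000, -41047500, -46270500, -22797600, -8029500, -7855800, -5861400, -930900, 624600,
  45000],
  [5400000, 14538750, 19259250, 18300525, 8953665, 3528402, 986946, -412641, -136197, -13932],
  [2250000, 5400000, -8460000, -20160000, -1170000, 12780000, 7380000, 1980000]⟩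

/-- approximant (times `DD`) -/
def B : List ℤ :=
  [-26711483484, -53828135358, 241984447560, -394024623174, 26282949558, 3084384320067,
  -12814524903497, 31113519712104, -53546582543405, 67892736236942, -63022744962775,
  41594587798206, -18454462343630, 4928590376567, -598197874929]

/-- error (times `DD`) -/
def E : ℤ := 63518

/-- test list -/
def n0 : List ℤ :=
  [94015660974375000, 116972961750562500, 6791341413037500, 238049346329032500,
  518541623286744000, -442845921556385550, -65641305579960400, -333012659436462550,
  -821375670651562550, 1621676480123554400, -1002785900992583550, -1034546916755413800,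
  2084036958793218750, -858447171945950000, -680533567043781250, 756675993559375000,
  -150849027683925000, -68260848786618750, 17799887484437500, 3738736718306250]

/-- test list -/
def n1 : List ℤ :=
  [-262731202560000000, -826395328512000000, -931548207513600000, -458976311377920000,
  -161655187046400000, -158158144143360000, -118005568634880000, -18741492449280000,
  12574858936320000, 905969664000000]

/-- test list -/
def n2 : List ℤ :=
  [108716359680000000, 292703698944000000, 387739916697600000, 368438233006080000,
  180261086035968000, 71036114986598400, 19869847466803200, -8307560624947200,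
  -2742007785062400, -280488207974400]

/-- test list -/
def n3 : List ℤ :=
  [45298483200000000, 108716359680000000, -170322296832000000, -405874409472000000,
  -23555211264000000, 257295384576000000, 148579024896000000, 39862665216000000]

/-- weight list -/
def wt : List ℤ :=
  [9924687500, 23819250000, 8336737500, -19055400000, -17864437500, -4763850000, -396987500]

/-- factor -/
def fac : List ℤ := [10, -18, 6, 2]

lemma e0 : eqL n0 (addL (smulL DD N.n0) (smulL (-1) (mulL B (dnL 6250 0 0 3 0 2)))) = true := by
  decide +kernel

lemma e1 : eqL n1 (smulL DD N.n1) = true := by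
  decide +kernel

lemma e2 : eqL n2 (smulL DD N.n2) = true := by
  decide +kernel

lemma e3 : eqL n3 (smulL DD N.n3) = true := by
  decide +kernel

lemma e4 : eqL wt (smulL E (mulL (powZ 1) (dnL 6250 0 0 3 0 2))) = true := by
  decide +kernel

lemma hv : vanT n1 n2 n3 [] [] 0 0 = true := by
  decide +kernel

lemma h0 : chkL05 n0 n1 n2 n3 wt 0 = true := by
  decide +kernel

lemma h6 : chkLp5 n0 n1 n2 n3 wt 0 6 1 2 128 = true := by
  decide +kernel

lemma h5 : chkLp5 n0 n1 n2 n3 wt 0 5 1 2 64 = true := by
  decide +kernel

lemma h4 : chkLp5 n0 n1 n2 n3 wt 0 4 1 2 32 = true := by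
  decide +kernel

lemma h3 : chkLp5 n0 n1 n2 n3 wt 0 3 1 2 16 = true := by
  decide +kernel

lemma h2 : chkLp5 n0 n1 n2 n3 wt 0 2 1 2 8 = true := by
  decide +kernel

lemma r1 : chkN 1 1 4 4 (addL (rW5 n1 n2 n3 wt 0) (rM n0 n1 n2 n3 [] [] 0)) = true := by
  decide +kernel

lemma r2 : chkN 1 1 4 4 (addL (rW5 n1 n2 n3 wt 0)
      (smulL (-1) (rM n0 n1 n2 n3 [] [] 0))) = true := by
  decide +kernel

lemma d0 : eqL r.n0 (mulL fac N.n0) = true := by
  decide +kernel

lemma d1 : eqL r.n1 (mulL fac N.n1) = true := by
  decide +kernel

lemma d2 : eqL r.n2 (mulL fac N.n2) = true := by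
  decide +kernel

lemma d3 : eqL r.n3 (mulL fac N.n3) = true := by
  decide +kernel

lemma dd : eqL DnL (mulL fac (dnL 6250 0 0 3 0 2)) = true := by
  decide +kernel

theorem eq {T : ℝ} (h0 : 0 < T) (h1 : T < 1) :
    G4 r T / ev DnL T = qf N 6250 0 0 3 0 2 T :=
  G4_div_eq (by norm_num) d0 d1 d2 d3 dd h0 h1

theorem bd {T : ℝ} (hT0 : 0 < T) (hT1 : T < 1) :
    |(DD : ℝ) * (G4 r T / ev DnL T) - ev B T| ≤ E * (1 - T) ^ 1 := by
  rw [eq hT0 hT1]
  exact qf_bd (by norm_num) e0 e1 e2 e3 e4 (q := 1) (by norm_num) (by norm_num) hv h0
    h6 h5 h4 h3 h2 r1 r2 hT0 hT1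

end Vale.Agent.P224.SP.K16
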