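import Vale.Agent.P224.SP.Piv.Dn

/-!
Column function z 0 4 0 2: kernel-checked polynomial approximant on `(0, 1)`.
-/

namespace Vale.Agent.P224.SP.K17

open Vale.Agent.P224.SP

/-- coefficient lists over `DnL` -/
def r : Q4 := ⟨
  [-29250000, 15300000, 28815000, -114828000, 17391600, 252318120, -43387680, -218243016,
  33785424, 86385264, -453672, -20088816, -6879408, -845496, -21264, 1944],
  [58500000, 39600000, -152580000, -96672000, 142080000, 83235600, -70718400, -41990400,
  31562400, 22864800, -7389600, -6940800, -1454400, -97200],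
  [-29250000, -8100000, 40515000, 1278000, -2686800, -4437510, 23060940, 9592248, -18746172,
  -11620284, -648036, 832824, 196668, 13122],
  [0, 0, 67500000, -4500000, -153900000, 4140000, 104940000, 5220000, -18180000, -4860000,
  -360000]⟩

/-- reduced coefficient lists -/
def N : Q4 := ⟨
  [-117000, -102600, -37740, -477300, -551748, 224136, 276492, -214968, -164976, -23268, 972],
  [234000, 486000, 88800, -309600, -61200, 137400, 5400, -95400, -48600],
  [-117000, -196200, -121980, -138300, -129756, -144243, -54927, 13041, 6561],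
  [0, 0, 270000, 360000, -90000, -180000]⟩

/-- approximant (times `DD`) -/
def B : List ℤ :=
  [-7225141190, 9561520468, -131082131296, 177265598889, -270061777627, -118463726421,
  2538062087715, -7598198668195, 13699259789804, -17508717170628, 16205398595925,
  -10633512842637, 4689190052101, -1245389156900, 150426426120]

/-- error (times `DD`) -/
def E : ℤ := 5439

/-- test list -/
def n0 : List ℤ :=
  [-2310363993962500, -1989898939532500, 15649650929500, -8393559643753750, -10345967858406600,
  7812043664519950, -4119425632848600, -518718970780600, 6676179903677050, -21296748476228100,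
  17651895286879900, 5276304855887500, -24350813383356250, 17955993328643750, 948023318212500,
  -8776886623506250, 4963186740875000, -940165163250000]

/-- test list -/
def n1 : List ℤ :=
  [4711042252800000, 9784472371200000, 1787780136960000, -6233071288320000, -1232118743040000,
  2766227374080000, 108716359680000, -1920655687680000, -978447237120000]

/-- test list -/
def n2 : List ℤ :=
  [-2355521126400000, -3950027735040000, -2455781769216000, -2784346767360000,
  -2612333327155200, -2903995160985600, -1105826571878400, 262550008627200, 132090377011200]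

/-- test list -/
def n3 : List ℤ :=
  [0, 0, 5435817984000000, 7247757312000000, -1811939328000000, -3623878656000000]

/-- weight list -/
def wt : List ℤ :=
  [33993750, 67987500, 0, -67987500, -33993750]

/-- factor -/
def fac : List ℤ := [250, -350, -20, 92, 26, 2]

lemma e0 : eqL n0 (addL (smulL DD N.n0) (smulL (-1) (mulL B (dnL 6250 0 0 3 0 0)))) = true := by
  decide +kernel

lemma e1 : eqL n1 (smulL DD N.n1) = true := by
  decide +kernel

lemma e2 : eqL n2 (smulL DD N.n2) = true := by
  decide +kernel

lemma e3 : eqL n3 (smulL DD N.n3) = true := by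
  decide +kernel

lemma e4 : eqL wt (smulL E (mulL (powZ 1) (dnL 6250 0 0 3 0 0))) = true := by
  decide +kernel

lemma hv : vanT n1 n2 n3 [] [] 0 0 = true := by
  decide +kernel

lemma h0 : chkL05 n0 n1 n2 n3 wt 0 = true := by
  decide +kernel

lemma h6 : chkLp5 n0 n1 n2 n3 wt 0 6 1 2 128 = true := by
  decide +kernel

lemma h5 : chkLp5 n0 n1 n2 n3 wt 0 5 1 2 64 = true := by
  decide +kernel

lemma h4 : chkLp5 n0 n1 n2 n3 wt 0 4 1 2 32 = true := by
  decide +kernel

lemma h3 : chkLp5 n0 n1 n2 n3 wt 0 3 1 2 16 = true := by
  decide +kernel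

lemma h2 : chkLp5 n0 n1 n2 n3 wt 0 2 1 2 8 = true := by
  decide +kernel

lemma r1 : chkN 1 1 4 4 (addL (rW5 n1 n2 n3 wt 0) (rM n0 n1 n2 n3 [] [] 0)) = true := by
  decide +kernel

lemma r2 : chkN 1 1 4 4 (addL (rW5 n1 n2 n3 wt 0)
      (smulL (-1) (rM n0 n1 n2 n3 [] [] 0))) = true := by
  decide +kernel

lemma d0 : eqL r.n0 (mulL fac N.n0) = true := by
  decide +kernel

lemma d1 : eqL r.n1 (mulL fac N.n1) = true := by
  decide +kernel

lemma d2 : eqL r.n2 (mulL fac N.n2) = true := by
  decide +kernel

lemma d3 : eqL r.n3 (mulL fac N.n3) = true := by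
  decide +kernel

lemma dd : eqL DnL (mulL fac (dnL 6250 0 0 3 0 0)) = true := by
  decide +kernel

theorem eq {T : ℝ} (h0 : 0 < T) (h1 : T < 1) :
    G4 r T / ev DnL T = qf N 6250 0 0 3 0 0 T :=
  G4_div_eq (by norm_num) d0 d1 d2 d3 dd h0 h1

theorem bd {T : ℝ} (hT0 : 0 < T) (hT1 : T < 1) :
    |(DD : ℝ) * (G4 r T / ev DnL T) - ev B T| ≤ E * (1 - T) ^ 1 := by
  rw [eq hT0 hT1]
  exact qf_bd (by norm_num) e0 e1 e2 e3 e4 (q := 1) (by norm_num) (by norm_num) hv h0
    h6 h5 h4 h3 h2 r1 r2 hT0 hT1

end Vale.Agent.P224.SP.K17
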