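import Vale.Agent.P224.SP.Piv.Dn

/-!
Column function z 0 4 0 3: kernel-checked polynomial approximant on `(0, 1)`.
-/

namespace Vale.Agent.P224.SP.K18

open Vale.Agent.P224.SP

/-- coefficient lists over `DnL` -/
def r : Q4 := ⟨
  [0, -9000000, 17025000, 64170000, -4074000, -91462200, -19499040, 31826040, -9270240,
  -5633712, 13191720, 9810816, 2620080, 289704, 6480, -648],
  [0, 18000000, 28800000, -23040000, -55296000, -3726000, 30672000, 7488000, -10137600,
  -1605600, 5443200, 2851200, 518400, 32400],
  [0, -9000000, 450000, 27720000, 8514000, -22611150, -22177980, 2549880, 10861740, 4176036,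
  -66420, -342072, -69660, -4374],
  [0, 0, -22500000, -13500000, 42300000, 26820000, -17100000, -13140000, -2700000, -180000]⟩

/-- reduced coefficient lists -/
def N : Q4 := ⟨
  [0, -36000, 17700, 278580, 388380, 197400, 125364, 146568, 62880, 7452, -324],
  [0, 72000, 216000, 216000, 72000, 16200, 48600, 48600, 16200],
  [0, -36000, -48600, 39960, 99360, 73485, 12753, -6399, -2187],
  [0, 0, -90000, -180000, -90000]⟩

/-- approximant (times `DD`) -/
def B : List ℤ :=
  [317, -2223245043, 43727203481, -16991714341, 30254738674, -91940450345, 22945497389,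
  386776436431, -932939584235, 1305595681802, -1252420643108, 834281932827, -370222686598,
  98552183606, -11908806985]

/-- error (times `DD`) -/
def E : ℤ := 321

/-- test list -/
def n0 : List ℤ :=
  [-1981250, -710880455625000, 124738884696250, 4936555191873500, 7142634923527250,
  4026838012736250, 3643306637730050, 1638014117144350, -10844432504000, 2087205227739650,
  -1583548519230800, -380421654212500, 1994019597743750, -1489432994906250, -46010105412500,
  689328479593750, -392661016568750, 74430043656250]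

/-- test list -/
def n1 : List ℤ :=
  [0, 1449551462400000, 4348654387200000, 4348654387200000, 1449551462400000, 326149079040000,
  978447237120000, 978447237120000, 326149079040000]

/-- test list -/
def n2 : List ℤ :=
  [0, -724775731200000, -978447237120000, 804501061632000, 2000381018112000, 1479448461312000,
  256751802777600, -128828886220800, -44030125670400]

/-- test list -/
def n3 : List ℤ :=
  [0, 0, -1811939328000000, -3623878656000000, -1811939328000000]

/-- weight list -/
def wt : List ℤ :=
  [2006250, 4012500, 0, -4012500, -2006250]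

/-- factor -/
def fac : List ℤ := [250, -350, -20, 92, 26, 2]

lemma e0 : eqL n0 (addL (smulL DD N.n0) (smulL (-1) (mulL B (dnL 6250 0 0 3 0 0)))) = true := by
  decide +kernel

lemma e1 : eqL n1 (smulL DD N.n1) = true := by
  decide +kernel

lemma e2 : eqL n2 (smulL DD N.n2) = true := by
  decide +kernel

lemma e3 : eqL n3 (smulL DD N.n3) = true := by
  decide +kernel

lemma e4 : eqL wt (smulL E (mulL (powZ 1) (dnL 6250 0 0 3 0 0))) = true := by
  decide +kernel

lemma hv : vanT n1 n2 n3 [] [] 0 0 = true := by
  decide +kernel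

lemma h0 : chkL05 n0 n1 n2 n3 wt 0 = true := by
  decide +kernel

lemma h6 : chkLp5 n0 n1 n2 n3 wt 0 6 1 2 128 = true := by
  decide +kernel

lemma h5 : chkLp5 n0 n1 n2 n3 wt 0 5 1 2 64 = true := by
  decide +kernel

lemma h4 : chkLp5 n0 n1 n2 n3 wt 0 4 1 2 32 = true := by
  decide +kernel

lemma h3 : chkLp5 n0 n1 n2 n3 wt 0 3 1 2 16 = true := by
  decide +kernel

lemma h2 : chkLp5 n0 n1 n2 n3 wt 0 2 1 2 8 = true := by
  decide +kernel

lemma r1 : chkN 1 1 4 4 (addL (rW5 n1 n2 n3 wt 0) (rM n0 n1 n2 n3 [] [] 0)) = true := by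
  decide +kernel

lemma r2 : chkN 1 1 4 4 (addL (rW5 n1 n2 n3 wt 0)
      (smulL (-1) (rM n0 n1 n2 n3 [] [] 0))) = true := by
  decide +kernel

lemma d0 : eqL r.n0 (mulL fac N.n0) = true := by
  decide +kernel

lemma d1 : eqL r.n1 (mulL fac N.n1) = true := by
  decide +kernel

lemma d2 : eqL r.n2 (mulL fac N.n2) = true := by
  decide +kernel

lemma d3 : eqL r.n3 (mulL fac N.n3) = true := by
  decide +kernel

lemma dd : eqL DnL (mulL fac (dnL 6250 0 0 3 0 0)) = true := by
  decide +kernel

theorem eq {T : ℝ} (h0 : 0 < T) (h1 : T < 1) :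
    G4 r T / ev DnL T = qf N 6250 0 0 3 0 0 T :=
  G4_div_eq (by norm_num) d0 d1 d2 d3 dd h0 h1

theorem bd {T : ℝ} (hT0 : 0 < T) (hT1 : T < 1) :
    |(DD : ℝ) * (G4 r T / ev DnL T) - ev B T| ≤ E * (1 - T) ^ 1 := by
  rw [eq hT0 hT1]
  exact qf_bd (by norm_num) e0 e1 e2 e3 e4 (q := 1) (by norm_num) (by norm_num) hv h0
    h6 h5 h4 h3 h2 r1 r2 hT0 hT1

end Vale.Agent.P224.SP.K18
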