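import Vale.Agent.P224.SP.Piv.Dn

/-!
Column function z 0 4 1 0: kernel-checked polynomial approximant on `(0, 1)`.
-/

namespace Vale.Agent.P224.SP.K19

open Vale.Agent.P224.SP

/-- coefficient lists over `DnL` -/
def r : Q4 := ⟨
  [-360000000, 587250000, 894300000, -1828710000, -555288000, 2070098400, -191390400,
  -1025450400, 276268800, 220755600, -68714400, -25518000, 4824000, 1588800, 0, -14400],
  [720000000, -310500000, -2391600000, 1059660000, 2900160000, -1325760000, -1555200000,
  723960000, 380640000, -156420000, -58320000, 8700000, 4320000, 360000],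
  [-360000000, 299250000, 1011300000, -854565000, -954246000, 819700800, 370009200, -319584000,
  -80425200, 58663200, 14622000, -3367800, -1260000, -97200],
  []⟩

/-- reduced coefficient lists -/
def N : Q4 := ⟨
  [-28800, 35460, 43104, -68280, -4560, 36804, -11760, -3840, 2016, -144],
  [57600, -1800, -106800, 22800, 56400, -24600, -7200, 3600],
  [-28800, 12420, 43248, -24390, -12072, 9558, 1008, -972],
  []⟩

/-- approximant (times `DD`) -/
def B : List ℤ :=
  [-88924792107, 216213171182, -164711779440, 298876756553, -532415729600, -1388197022895,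
  8146852617174, -19695911784142, 31782319285197, -37359146771030, 32178290180456,
  -19770134676588, 8193700789438, -2050775177982, 233964933784]

/-- error (times `DD`) -/
def E : ℤ := 48412

/-- test list -/
def n0 : List ℤ :=
  [-568704985946625, 709108646861000, 845449420804675, -1397866266282875, -79383176460250,
  1010231354889550, -841515427415000, 521491035258125, -26581100813675, -816596604827550,
  1344710509550875, -903412364161750, -103965202089750, 679188534461750, -540764420907250,
  197855663801750, -29245616723000]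

/-- test list -/
def n1 : List ℤ :=
  [1159641169920000, -36238786560000, -2150168002560000, 459024629760000, 1135481978880000,
  -495263416320000, -144955146240000, 72477573120000]

/-- test list -/
def n2 : List ℤ :=
  [-579820584960000, 250047627264000, 870697245081600, -491035557888000, -243041461862400,
  192427956633600, 20293720473600, -19568944742400]

/-- test list -/
def n3 : List ℤ :=
  []

/-- weight list -/
def wt : List ℤ :=
  [6051500, 0, -12103000, 0, 6051500]

/-- factor -/
def fac : List ℤ := [12500, -5000, -18500, 3600, 5900, 1400, 100]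

lemma e0 : eqL n0 (addL (smulL DD N.n0) (smulL (-1) (mulL B (dnL 125 0 0 2 0 0)))) = true := by
  decide +kernel

lemma e1 : eqL n1 (smulL DD N.n1) = true := by
  decide +kernel

lemma e2 : eqL n2 (smulL DD N.n2) = true := by
  decide +kernel

lemma e3 : eqL n3 (smulL DD N.n3) = true := by
  decide +kernel

lemma e4 : eqL wt (smulL E (mulL (powZ 2) (dnL 125 0 0 2 0 0))) = true := by
  decide +kernel

lemma hv : vanT n1 n2 n3 [] [] 0 0 = true := by
  decide +kernel

lemma h0 : chkL05 n0 n1 n2 n3 wt 0 = true := by
  decide +kernel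

lemma h6 : chkLp5 n0 n1 n2 n3 wt 0 6 1 2 128 = true := by
  decide +kernel

lemma h5 : chkLp5 n0 n1 n2 n3 wt 0 5 1 2 64 = true := by
  decide +kernel

lemma h4 : chkLp5 n0 n1 n2 n3 wt 0 4 1 2 32 = true := by
  decide +kernel

lemma h3 : chkLp5 n0 n1 n2 n3 wt 0 3 1 2 16 = true := by
  decide +kernel

lemma h2 : chkLp5 n0 n1 n2 n3 wt 0 2 1 2 8 = true := by
  decide +kernel

lemma r1 : chkN 1 1 4 4 (addL (rW5 n1 n2 n3 wt 0) (rM n0 n1 n2 n3 [] [] 0)) = true := by
  decide +kernel

lemma r2 : chkN 1 1 4 4 (addL (rW5 n1 n2 n3 wt 0)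
      (smulL (-1) (rM n0 n1 n2 n3 [] [] 0))) = true := by
  decide +kernel

lemma d0 : eqL r.n0 (mulL fac N.n0) = true := by
  decide +kernel

lemma d1 : eqL r.n1 (mulL fac N.n1) = true := by
  decide +kernel

lemma d2 : eqL r.n2 (mulL fac N.n2) = true := by
  decide +kernel

lemma d3 : eqL r.n3 (mulL fac N.n3) = true := by
  decide +kernel

lemma dd : eqL DnL (mulL fac (dnL 125 0 0 2 0 0)) = true := by
  decide +kernel

theorem eq {T : ℝ} (h0 : 0 < T) (h1 : T < 1) :
    G4 r T / ev DnL T = qf N 125 0 0 2 0 0 T :=
  G4_div_eq (by norm_num) d0 d1 d2 d3 dd h0 h1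

theorem bd {T : ℝ} (hT0 : 0 < T) (hT1 : T < 1) :
    |(DD : ℝ) * (G4 r T / ev DnL T) - ev B T| ≤ E * (1 - T) ^ 2 := by
  rw [eq hT0 hT1]
  exact qf_bd (by norm_num) e0 e1 e2 e3 e4 (q := 1) (by norm_num) (by norm_num) hv h0
    h6 h5 h4 h3 h2 r1 r2 hT0 hT1

end Vale.Agent.P224.SP.K19
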