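import Vale.Agent.P224.SP.Piv.Dn

/-!
Column function z 0 4 1 1: kernel-checked polynomial approximant on `(0, 1)`.
-/

namespace Vale.Agent.P224.SP.K20

open Vale.Agent.P224.SP

/-- coefficient lists over `DnL` -/
def r : Q4 := ⟨
  [360000000, -1318500000, -136800000, 4095960000, -1827912000, -4631558400, 2926718400,
  2313278400, -1647979200, -529404000, 351508800, 76464000, -25593600, -6297600, 57600, 57600],
  [-720000000, 1773000000, 2631600000, -5774160000, -3516960000, 6923760000, 2161440000,
  -3673440000, -717120000, 805800000, 179760000, -53520000, -18720000, -1440000],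
  [360000000, -1030500000, -838800000, 3011190000, 483696000, -3067870800, -18103200,
  1342230000, 47366400, -274338000, -39588000, 18900000, 5428800, 388800],
  []⟩

/-- reduced coefficient lists -/
def N : Q4 := ⟨
  [28800, -93960, -5904, 177960, -70320, -92448, 54912, 7872, -7488, 576],
  [-57600, 118800, 172800, -200400, -112800, 112800, 14400, -14400],
  [28800, -70920, -52848, 106500, 9912, -38376, -144, 3888],
  []⟩

/-- approximant (times `DD`) -/
def B : List ℤ :=
  [88924779984, -396838912475, 496250590782, -434482986981, 1042278785548, 648150132192,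
  -11369584445566, 33538232995120, -60054230704266, 76308266148655, -70475135043021,
  46259723029215, -20429710481754, 5436015797471, -657859684904]

/-- error (times `DD`) -/
def E : ℤ := 36187

/-- test list -/
def n0 : List ℤ :=
  [568704987462000, -1864290989368625, -92800413143800, 3562660620968500, -1499424020240000,
  -2148502167259975, 2234400256444650, -1272417486300100, 392665292859400, 1294341694793825,
  -2760895818752875, 2297785113521500, -201825066706875, -1354539732897250, 1276942321464500,
  -515037053457875, 82232460613000]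

/-- test list -/
def n1 : List ℤ :=
  [-1159641169920000, 2391759912960000, 3478923509760000, -4034584903680000, -2270963957760000,
  2270963957760000, 289910292480000, -289910292480000]

/-- test list -/
def n2 : List ℤ :=
  [579820584960000, -1427808190464000, -1063970773401600, 2144128204800000, 199554917990400,
  -772610929459200, -2899102924800, 78275778969600]

/-- test list -/
def n3 : List ℤ :=
  []

/-- weight list -/
def wt : List ℤ :=
  [4523375, 4523375, -4523375, -4523375]

/-- factor -/
def fac : List ℤ := [12500, -5000, -18500, 3600, 5900, 1400, 100]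

lemma e0 : eqL n0 (addL (smulL DD N.n0) (smulL (-1) (mulL B (dnL 125 0 0 2 0 0)))) = true := by
  decide +kernel

lemma e1 : eqL n1 (smulL DD N.n1) = true := by
  decide +kernel

lemma e2 : eqL n2 (smulL DD N.n2) = true := by
  decide +kernel

lemma e3 : eqL n3 (smulL DD N.n3) = true := by
  decide +kernel

lemma e4 : eqL wt (smulL E (mulL (powZ 1) (dnL 125 0 0 2 0 0))) = true := by
  decide +kernel

lemma hv : vanT n1 n2 n3 [] [] 0 0 = true := by
  decide +kernel

lemma h0 : chkL05 n0 n1 n2 n3 wt 0 = true := by
  decide +kernel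

lemma h6 : chkLp5 n0 n1 n2 n3 wt 0 6 1 2 128 = true := by
  decide +kernel

lemma h5 : chkLp5 n0 n1 n2 n3 wt 0 5 1 2 64 = true := by
  decide +kernel

lemma h4 : chkLp5 n0 n1 n2 n3 wt 0 4 1 2 32 = true := by
  decide +kernel

lemma h3 : chkLp5 n0 n1 n2 n3 wt 0 3 1 2 16 = true := by
  decide +kernel

lemma h2 : chkLp5 n0 n1 n2 n3 wt 0 2 1 2 8 = true := by
  decide +kernel

lemma r1 : chkN 1 1 4 4 (addL (rW5 n1 n2 n3 wt 0) (rM n0 n1 n2 n3 [] [] 0)) = true := by
  decide +kernel

lemma r2 : chkN 1 1 4 4 (addL (rW5 n1 n2 n3 wt 0)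
      (smulL (-1) (rM n0 n1 n2 n3 [] [] 0))) = true := by
  decide +kernel

lemma d0 : eqL r.n0 (mulL fac N.n0) = true := by
  decide +kernel

lemma d1 : eqL r.n1 (mulL fac N.n1) = true := by
  decide +kernel

lemma d2 : eqL r.n2 (mulL fac N.n2) = true := by
  decide +kernel

lemma d3 : eqL r.n3 (mulL fac N.n3) = true := by
  decide +kernel

lemma dd : eqL DnL (mulL fac (dnL 125 0 0 2 0 0)) = true := by
  decide +kernel

theorem eq {T : ℝ} (h0 : 0 < T) (h1 : T < 1) :
    G4 r T / ev DnL T = qf N 125 0 0 2 0 0 T :=
  G4_div_eq (by norm_num) d0 d1 d2 d3 dd h0 h1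

theorem bd {T : ℝ} (hT0 : 0 < T) (hT1 : T < 1) :
    |(DD : ℝ) * (G4 r T / ev DnL T) - ev B T| ≤ E * (1 - T) ^ 1 := by
  rw [eq hT0 hT1]
  exact qf_bd (by norm_num) e0 e1 e2 e3 e4 (q := 1) (by norm_num) (by norm_num) hv h0
    h6 h5 h4 h3 h2 r1 r2 hT0 hT1

end Vale.Agent.P224.SP.K20
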