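import Vale.Agent.P224.SP.Piv.Dn

/-!
Column function z 0 4 1 2: kernel-checked polynomial approximant on `(0, 1)`.
-/

namespace Vale.Agent.P224.SP.K21

open Vale.Agent.P224.SP

/-- coefficient lists over `DnL` -/
def r : Q4 := ⟨
  [0, 731250000, -1282500000, -2083500000, 4142700000, 2059560000, -4937148000, -842292000,
  2623514400, 192754800, -594057600, -66960000, 47664000, 9273600, -172800, -86400],
  [0, -1462500000, 810000000, 5607000000, -2167200000, -7968600000, 1805760000, 5081040000,
  -319680000, -1369620000, -159120000, 110520000, 30240000, 2160000],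
  [0, 731250000, -697500000, -2392875000, 1862550000, 2871945000, -1549296000, -1606959000,
  370666800, 434298600, 22305600, -37076400, -8726400, -583200],
  []⟩

/-- reduced coefficient lists -/
def N : Q4 := ⟨
  [0, 58500, -79200, -111780, 152640, 55584, -83808, -1440, 10368, -864],
  [0, -117000, 18000, 282600, 0, -169200, 0, 21600],
  [0, 58500, -32400, -117810, 37080, 51948, -5616, -5832],
  []⟩

/-- approximant (times `DD`) -/
def B : List ℤ :=
  [-7014, 180631203514, -461498479075, 290588431171, -570880745090, 1583019228244,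
  738859345438, -9233085036395, 20196708839527, -26903178158881, 25058010872012,
  -16410190778986, 7208293018206, -1906761085063, 229483352392]

/-- error (times `DD`) -/
def E : ℤ := 7118

/-- test list -/
def n0 : List ℤ :=
  [876750, 1155181664514250, -1581977098757375, -2193956479942875, 3129449395515875,
  1027572957818425, -2104030034338100, 742552360411375, -99939353436275, -549538928021050,
  1068954575777875, -850331600769625, 69259708469250, 487545728454625, -453031775059000,
  180974297534875, -28685419049000]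

/-- test list -/
def n1 : List ℤ :=
  [0, -2355521126400000, 362387865600000, 5689489489920000, 0, -3406445936640000, 0,
  434865438720000]

/-- test list -/
def n2 : List ℤ :=
  [0, 1177760563200000, -652298158080000, -2371828580352000, 746519003136000, 1045851380121600,
  -113065014067200, -117413668454400]

/-- test list -/
def n3 : List ℤ :=
  []

/-- weight list -/
def wt : List ℤ :=
  [889750, 889750, -889750, -889750]

/-- factor -/
def fac : List ℤ := [12500, -5000, -18500, 3600, 5900, 1400, 100]

lemma e0 : eqL n0 (addL (smulL DD N.n0) (smulL (-1) (mulL B (dnL 125 0 0 2 0 0)))) = true := by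
  decide +kernel

lemma e1 : eqL n1 (smulL DD N.n1) = true := by
  decide +kernel

lemma e2 : eqL n2 (smulL DD N.n2) = true := by
  decide +kernel

lemma e3 : eqL n3 (smulL DD N.n3) = true := by
  decide +kernel

lemma e4 : eqL wt (smulL E (mulL (powZ 1) (dnL 125 0 0 2 0 0))) = true := by
  decide +kernel

lemma hv : vanT n1 n2 n3 [] [] 0 0 = true := by
  decide +kernel

lemma h0 : chkL05 n0 n1 n2 n3 wt 0 = true := by
  decide +kernel

lemma h6 : chkLp5 n0 n1 n2 n3 wt 0 6 1 2 128 = true := by
  decide +kernel

lemma h5 : chkLp5 n0 n1 n2 n3 wt 0 5 1 2 64 = true := by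
  decide +kernel

lemma h4 : chkLp5 n0 n1 n2 n3 wt 0 4 1 2 32 = true := by
  decide +kernel

lemma h3 : chkLp5 n0 n1 n2 n3 wt 0 3 1 2 16 = true := by
  decide +kernel

lemma h2 : chkLp5 n0 n1 n2 n3 wt 0 2 1 2 8 = true := by
  decide +kernel

lemma r1 : chkN 1 1 4 4 (addL (rW5 n1 n2 n3 wt 0) (rM n0 n1 n2 n3 [] [] 0)) = true := by
  decide +kernel

lemma r2 : chkN 1 1 4 4 (addL (rW5 n1 n2 n3 wt 0)
      (smulL (-1) (rM n0 n1 n2 n3 [] [] 0))) = true := by
  decide +kernel

lemma d0 : eqL r.n0 (mulL fac N.n0) = true := by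
  decide +kernel

lemma d1 : eqL r.n1 (mulL fac N.n1) = true := by
  decide +kernel

lemma d2 : eqL r.n2 (mulL fac N.n2) = true := by
  decide +kernel

lemma d3 : eqL r.n3 (mulL fac N.n3) = true := by
  decide +kernel

lemma dd : eqL DnL (mulL fac (dnL 125 0 0 2 0 0)) = true := by
  decide +kernel

theorem eq {T : ℝ} (h0 : 0 < T) (h1 : T < 1) :
    G4 r T / ev DnL T = qf N 125 0 0 2 0 0 T :=
  G4_div_eq (by norm_num) d0 d1 d2 d3 dd h0 h1

theorem bd {T : ℝ} (hT0 : 0 < T) (hT1 : T < 1) :
    |(DD : ℝ) * (G4 r T / ev DnL T) - ev B T| ≤ E * (1 - T) ^ 1 := by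
  rw [eq hT0 hT1]
  exact qf_bd (by norm_num) e0 e1 e2 e3 e4 (q := 1) (by norm_num) (by norm_num) hv h0
    h6 h5 h4 h3 h2 r1 r2 hT0 hT1

end Vale.Agent.P224.SP.K21
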