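import Vale.Agent.P224.SP.Piv.Dn

/-!
Column function z 0 4 1 3: kernel-checked polynomial approximant on `(0, 1)`.
-/

namespace Vale.Agent.P224.SP.K22

open Vale.Agent.P224.SP

/-- coefficient lists over `DnL` -/
def r : Q4 := ⟨
  [0, 0, 525000000, -315000000, -1812000000, 902400000, 2376720000, -864816000, -1454880000,
  276537600, 402772800, 6830400, -37785600, -6009600, 172800, 57600],
  [0, 0, -1050000000, -630000000, 3204000000, 1989600000, -3290400000, -2187360000, 1147200000,
  924480000, 10800000, -95280000, -21600000, -1440000],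
  [0, 0, 525000000, 105000000, -1549500000, -393900000, 1525740000, 531228000, -523500000,
  -273640800, 16053600, 30924000, 6206400, 388800],
  []⟩

/-- reduced coefficient lists -/
def N : Q4 := ⟨
  [0, 0, 42000, -8400, -86160, 13200, 50496, -5376, -6336, 576],
  [0, 0, -84000, -84000, 98400, 98400, -14400, -14400],
  [0, 0, 42000, 25200, -51720, -27000, 7632, 3888],
  []⟩

/-- approximant (times `DD`) -/
def B : List ℤ :=
  [907, -360455, 129706998296, -182285568621, 18492367335, -464551314995, 989868095757,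
  141102376497, -2423201915401, 4007977940021, -3981908521596, 2674840563204, -1187514667718,
  315502233288, -38028226519]

/-- error (times `DD`) -/
def E : ℤ := 921

/-- test list -/
def n0 : List ℤ :=
  [-113375, 44830125, 829358401613375, -178755345719500, -1707583445220625, 341982620058250,
  1006711529825450, -315269082486200, 16330604640050, 98761850984700, -201355680380625,
  160124817495875, -22532242136750, -76914182632000, 74317303457625, -29930722531250,
  4753528314875]

/-- test list -/
def n1 : List ℤ :=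
  [0, 0, -1691143372800000, -1691143372800000, 1981053665280000, 1981053665280000,
  -289910292480000, -289910292480000]

/-- test list -/
def n2 : List ℤ :=
  [0, 0, 845571686400000, 507343011840000, -1041261133824000, -543581798400000,
  153652455014400, 78275778969600]

/-- test list -/
def n3 : List ℤ :=
  []

/-- weight list -/
def wt : List ℤ :=
  [115125, 115125, -115125, -115125]

/-- factor -/
def fac : List ℤ := [12500, -5000, -18500, 3600, 5900, 1400, 100]

lemma e0 : eqL n0 (addL (smulL DD N.n0) (smulL (-1) (mulL B (dnL 125 0 0 2 0 0)))) = true := by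
  decide +kernel

lemma e1 : eqL n1 (smulL DD N.n1) = true := by
  decide +kernel

lemma e2 : eqL n2 (smulL DD N.n2) = true := by
  decide +kernel

lemma e3 : eqL n3 (smulL DD N.n3) = true := by
  decide +kernel

lemma e4 : eqL wt (smulL E (mulL (powZ 1) (dnL 125 0 0 2 0 0))) = true := by
  decide +kernel

lemma hv : vanT n1 n2 n3 [] [] 0 0 = true := by
  decide +kernel

lemma h0 : chkL05 n0 n1 n2 n3 wt 0 = true := by
  decide +kernel

lemma h6 : chkLp5 n0 n1 n2 n3 wt 0 6 1 2 128 = true := by
  decide +kernel

lemma h5 : chkLp5 n0 n1 n2 n3 wt 0 5 1 2 64 = true := by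
  decide +kernel

lemma h4 : chkLp5 n0 n1 n2 n3 wt 0 4 1 2 32 = true := by
  decide +kernel

lemma h3 : chkLp5 n0 n1 n2 n3 wt 0 3 1 2 16 = true := by
  decide +kernel

lemma h2 : chkLp5 n0 n1 n2 n3 wt 0 2 1 2 8 = true := by
  decide +kernel

lemma r1 : chkN 2 1 4 4 (addL (rW5 n1 n2 n3 wt 0) (rM n0 n1 n2 n3 [] [] 0)) = true := by
  decide +kernel

lemma r2 : chkN 2 1 4 4 (addL (rW5 n1 n2 n3 wt 0)
      (smulL (-1) (rM n0 n1 n2 n3 [] [] 0))) = true := by
  decide +kernel

lemma d0 : eqL r.n0 (mulL fac N.n0) = true := by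
  decide +kernel

lemma d1 : eqL r.n1 (mulL fac N.n1) = true := by
  decide +kernel

lemma d2 : eqL r.n2 (mulL fac N.n2) = true := by
  decide +kernel

lemma d3 : eqL r.n3 (mulL fac N.n3) = true := by
  decide +kernel

lemma dd : eqL DnL (mulL fac (dnL 125 0 0 2 0 0)) = true := by
  decide +kernel

theorem eq {T : ℝ} (h0 : 0 < T) (h1 : T < 1) :
    G4 r T / ev DnL T = qf N 125 0 0 2 0 0 T :=
  G4_div_eq (by norm_num) d0 d1 d2 d3 dd h0 h1

theorem bd {T : ℝ} (hT0 : 0 < T) (hT1 : T < 1) :
    |(DD : ℝ) * (G4 r T / ev DnL T) - ev B T| ≤ E * (1 - T) ^ 1 := by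
  rw [eq hT0 hT1]
  exact qf_bd (by norm_num) e0 e1 e2 e3 e4 (q := 2) (by norm_num) (by norm_num) hv h0
    h6 h5 h4 h3 h2 r1 r2 hT0 hT1

end Vale.Agent.P224.SP.K22
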