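import Vale.Agent.P224.SP.Piv.Dn

/-!
Column function z 0 4 1 4: kernel-checked polynomial approximant on `(0, 1)`.
-/

namespace Vale.Agent.P224.SP.K23

open Vale.Agent.P224.SP

/-- coefficient lists over `DnL` -/
def r : Q4 := ⟨
  [0, 0, 0, 131250000, 52500000, -400500000, -174900000, 419280000, 203076000, -160644000,
  -91509600, 9183600, 10891200, 1444800, -57600, -14400],
  [0, 0, 0, -262500000, -420000000, 381000000, 878400000, 55800000, -491040000, -204240000,
  26880000, 29580000, 5760000, 360000],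
  [0, 0, 0, 131250000, 157500000, -229875000, -328350000, 53085000, 185892000, 55017000,
  -13393200, -9379800, -1648800, -97200],
  []⟩

/-- reduced coefficient lists -/
def N : Q4 := ⟨
  [0, 0, 0, 10500, 8400, -13140, -9840, 2784, 1440, -144],
  [0, 0, 0, -21000, -42000, -17400, 7200, 3600],
  [0, 0, 0, 10500, 16800, 3870, -2880, -972],
  []⟩

/-- approximant (times `DD`) -/
def B : List ℤ :=
  [-53, 20999, -1440099, 32461225128, -13606428011, -4828076290, -143798848260, 190110864893,
  -6809961646, -163195884901, 209856457930, -154928227487, 71927693457, -19582110723,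
  2394715063]

/-- error (times `DD`) -/
def E : ℤ := 54

/-- test list -/
def n0 : List ℤ :=
  [6625, -2611625, 174769250, 207335625858875, 162700014511750, -264595678490000,
  -177222687921625, 68838686702425, 289414263000, -4560985012300, 15418159189750,
  -12698600434000, 3509037948375, 3831868912000, -4394773384250, 1849085074625, -299339382875]

/-- test list -/
def n1 : List ℤ :=
  [0, 0, 0, -422785843200000, -845571686400000, -350308270080000, 144955146240000,
  72477573120000]

/-- test list -/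
def n2 : List ℤ :=
  [0, 0, 0, 211392921600000, 338228674560000, 77913391104000, -57982058496000, -19568944742400]

/-- test list -/
def n3 : List ℤ :=
  []

/-- weight list -/
def wt : List ℤ :=
  [6750, 6750, -6750, -6750]

/-- factor -/
def fac : List ℤ := [12500, -5000, -18500, 3600, 5900, 1400, 100]

lemma e0 : eqL n0 (addL (smulL DD N.n0) (smulL (-1) (mulL B (dnL 125 0 0 2 0 0)))) = true := by
  decide +kernel

lemma e1 : eqL n1 (smulL DD N.n1) = true := by
  decide +kernel

lemma e2 : eqL n2 (smulL DD N.n2) = true := by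
  decide +kernel

lemma e3 : eqL n3 (smulL DD N.n3) = true := by
  decide +kernel

lemma e4 : eqL wt (smulL E (mulL (powZ 1) (dnL 125 0 0 2 0 0))) = true := by
  decide +kernel

lemma hv : vanT n1 n2 n3 [] [] 0 0 = true := by
  decide +kernel

lemma h0 : chkL05 n0 n1 n2 n3 wt 0 = true := by
  decide +kernel

lemma h6 : chkLp5 n0 n1 n2 n3 wt 0 6 1 2 128 = true := by
  decide +kernel

lemma h5 : chkLp5 n0 n1 n2 n3 wt 0 5 1 2 64 = true := by
  decide +kernel

lemma h4 : chkLp5 n0 n1 n2 n3 wt 0 4 1 2 32 = true := by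
  decide +kernel

lemma h3 : chkLp5 n0 n1 n2 n3 wt 0 3 1 2 16 = true := by
  decide +kernel

lemma h2 : chkLp5 n0 n1 n2 n3 wt 0 2 1 2 8 = true := by
  decide +kernel

lemma r1 : chkN 2 1 4 4 (addL (rW5 n1 n2 n3 wt 0) (rM n0 n1 n2 n3 [] [] 0)) = true := by
  decide +kernel

lemma r2 : chkN 2 1 4 4 (addL (rW5 n1 n2 n3 wt 0)
      (smulL (-1) (rM n0 n1 n2 n3 [] [] 0))) = true := by
  decide +kernel

lemma d0 : eqL r.n0 (mulL fac N.n0) = true := by
  decide +kernel

lemma d1 : eqL r.n1 (mulL fac N.n1) = true := by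
  decide +kernel

lemma d2 : eqL r.n2 (mulL fac N.n2) = true := by
  decide +kernel

lemma d3 : eqL r.n3 (mulL fac N.n3) = true := by
  decide +kernel

lemma dd : eqL DnL (mulL fac (dnL 125 0 0 2 0 0)) = true := by
  decide +kernel

theorem eq {T : ℝ} (h0 : 0 < T) (h1 : T < 1) :
    G4 r T / ev DnL T = qf N 125 0 0 2 0 0 T :=
  G4_div_eq (by norm_num) d0 d1 d2 d3 dd h0 h1

theorem bd {T : ℝ} (hT0 : 0 < T) (hT1 : T < 1) :
    |(DD : ℝ) * (G4 r T / ev DnL T) - ev B T| ≤ E * (1 - T) ^ 1 := by
  rw [eq hT0 hT1]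
  exact qf_bd (by norm_num) e0 e1 e2 e3 e4 (q := 2) (by norm_num) (by norm_num) hv h0
    h6 h5 h4 h3 h2 r1 r2 hT0 hT1

end Vale.Agent.P224.SP.K23
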