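import Vale.Agent.P224.SP.Piv.Dn

/-!
Column function z 0 5 2 0: kernel-checked polynomial approximant on `(0, 1)`.
-/

namespace Vale.Agent.P224.SP.K24

open Vale.Agent.P224.SP

/-- coefficient lists over `DnL` -/
def r : Q4 := ⟨
  [202500000, 1062000000, -523800000, -3433140000, 351828000, 3627439200, 300958560,
  -1372478400, -394791840, 106096320, 62559360, 10026720, 741600, 56160, 4320],
  [-405000000, -2214000000, -1339200000, 4312440000, 4199472000, -1893024000, -2752704000,
  -295056000, 288792000, 89424000, 8640000, 216000],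
  [202500000, 1134000000, 263250000, -2415420000, -1224072000, 1448717400, 766593720,
  -59891400, -98136360, -18205560, 255960, 379080, 29160],
  [0, -216000000, 194400000, 600480000, -513648000, -485568000, 359856000, 116640000,
  -39312000, -15552000, -1296000]⟩

/-- reduced coefficient lists -/
def N : Q4 := ⟨
  [81000, 538200, 550440, -589392, -846864, -40968, 150624, 27144, 0, 216],
  [-162000, -1112400, -2106000, -1252800, 183600, 291600, 10800],
  [81000, 567000, 905580, 317196, -190188, -54270, 0, 1458],
  [0, -86400, -43200, 172800, 64800, -64800]⟩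

/-- approximant (times `DD`) -/
def B : List ℤ :=
  [50020299605, 584517888843, -944548507405, -850217946422, 1633559626604, 4414331745291,
  -22763314996033, 55235239939150, -91420422714137, 109790928223385, -95937045312984,
  59493483404029, -24807981841259, 6234811060892, -713360869559]

/-- error (times `DD`) -/
def E : ℤ := 144077

/-- test list -/
def n0 : List ℤ :=
  [1599482707946875, 10376285439153750, 10482404643836125, -10690847332142025,
  -15070735646977550, -4462174956125600, 6451123426072050, -592175232130200, -6506052412815625,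
  13459308090392825, -9006069471193750, -6021693388184375, 15217337090461875,
  -8971419022636250, -1912881370855625, 5152269542037500, -2559205282634375, 445850543474375]

/-- test list -/
def n1 : List ℤ :=
  [-3261490790400000, -22395570094080000, -42399380275200000, -25222195445760000,
  3696356229120000, 5870683422720000, 217432719360000]

/-- test list -/
def n2 : List ℤ :=
  [1630745395200000, 11415217766400000, 18231733518336000, 6385998967603200, -3828990187929600,
  -1092599414784000, 0, 29353417113600]

/-- test list -/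
def n3 : List ℤ :=
  [0, -1739461754880000, -869730877440000, 3478923509760000, 1304596316160000,
  -1304596316160000]

/-- weight list -/
def wt : List ℤ :=
  [90048125, 90048125, -180096250, -180096250, 90048125, 90048125]

/-- factor -/
def fac : List ℤ := [2500, -3500, -200, 920, 260, 20]

lemma e0 : eqL n0 (addL (smulL DD N.n0) (smulL (-1) (mulL B (dnL 625 0 0 3 0 0)))) = true := by
  decide +kernel

lemma e1 : eqL n1 (smulL DD N.n1) = true := by
  decide +kernel

lemma e2 : eqL n2 (smulL DD N.n2) = true := by
  decide +kernel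

lemma e3 : eqL n3 (smulL DD N.n3) = true := by
  decide +kernel

lemma e4 : eqL wt (smulL E (mulL (powZ 2) (dnL 625 0 0 3 0 0))) = true := by
  decide +kernel

lemma hv : vanT n1 n2 n3 [] [] 0 0 = true := by
  decide +kernel

lemma h0 : chkL05 n0 n1 n2 n3 wt 0 = true := by
  decide +kernel

lemma h6 : chkLp5 n0 n1 n2 n3 wt 0 6 1 2 128 = true := by
  decide +kernel

lemma h5 : chkLp5 n0 n1 n2 n3 wt 0 5 1 2 64 = true := by
  decide +kernel

lemma h4 : chkLp5 n0 n1 n2 n3 wt 0 4 1 2 32 = true := by
  decide +kernel

lemma h3 : chkLp5 n0 n1 n2 n3 wt 0 3 1 2 16 = true := by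
  decide +kernel

lemma h2 : chkLp5 n0 n1 n2 n3 wt 0 2 1 2 8 = true := by
  decide +kernel

lemma r1 : chkN 1 1 4 4 (addL (rW5 n1 n2 n3 wt 0) (rM n0 n1 n2 n3 [] [] 0)) = true := by
  decide +kernel

lemma r2 : chkN 1 1 4 4 (addL (rW5 n1 n2 n3 wt 0)
      (smulL (-1) (rM n0 n1 n2 n3 [] [] 0))) = true := by
  decide +kernel

lemma d0 : eqL r.n0 (mulL fac N.n0) = true := by
  decide +kernel

lemma d1 : eqL r.n1 (mulL fac N.n1) = true := by
  decide +kernel

lemma d2 : eqL r.n2 (mulL fac N.n2) = true := by
  decide +kernel

lemma d3 : eqL r.n3 (mulL fac N.n3) = true := by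
  decide +kernel

lemma dd : eqL DnL (mulL fac (dnL 625 0 0 3 0 0)) = true := by
  decide +kernel

theorem eq {T : ℝ} (h0 : 0 < T) (h1 : T < 1) :
    G4 r T / ev DnL T = qf N 625 0 0 3 0 0 T :=
  G4_div_eq (by norm_num) d0 d1 d2 d3 dd h0 h1

theorem bd {T : ℝ} (hT0 : 0 < T) (hT1 : T < 1) :
    |(DD : ℝ) * (G4 r T / ev DnL T) - ev B T| ≤ E * (1 - T) ^ 2 := by
  rw [eq hT0 hT1]
  exact qf_bd (by norm_num) e0 e1 e2 e3 e4 (q := 1) (by norm_num) (by norm_num) hv h0
    h6 h5 h4 h3 h2 r1 r2 hT0 hT1

end Vale.Agent.P224.SP.K24
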