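import Vale.Agent.P224.SP.Piv.Dn

/-!
Column function z 0 5 2 1: kernel-checked polynomial approximant on `(0, 1)`.
-/

namespace Vale.Agent.P224.SP.K25

open Vale.Agent.P224.SP

/-- coefficient lists over `DnL` -/
def r : Q4 := ⟨
  [0, -783000000, 712800000, 2912940000, -1962468000, -3959150400, 1338268320, 2298702240,
  68700960, -447516000, -155610720, -21841920, -1681920, -133920, -8640],
  [0, 1566000000, 1047600000, -4364280000, -2987712000, 3837024000, 2817504000, -845424000,
  -862272000, -193104000, -15120000, -216000],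
  [0, -783000000, -48600000, 2211840000, 276588000, -2033839800, -386048160, 501877080,
  235377360, 29377080, -2609280, -903960, -58320],
  [0, 0, -324000000, 21600000, 900720000, -30672000, -711072000, -25920000, 131760000,
  34992000, 2592000]⟩

/-- reduced coefficient lists -/
def N : Q4 := ⟨
  [0, -313200, 159840, 1078776, -311832, -1175184, 37656, 344160, 49104, 648, 432],
  [0, 626400, 669600, -1177200, -1274400, 540000, 604800, 10800],
  [0, -313200, -144720, 676512, 276696, -396846, -105732, 4374, 2916],
  [0, 0, -129600, -43200, 280800, 64800, -129600]⟩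

/-- approximant (times `DD`) -/
def B : List ℤ :=
  [-7212, -193408452451, 873972049797, -685483550485, -1007993820084, 2038612334872,
  -21785100974, -6716373436050, 16685451057731, -24108221342530, 23647990434996,
  -15998901345703, 7178160708524, -1926175907627, 234156377196]

/-- error (times `DD`) -/
def E : ℤ := 7318

/-- test list -/
def n0 : List ℤ :=
  [4507500, -6184668569643125, 2913532280968625, 21054591708931075, -5032917378066900,
  -22702134624018425, -2087156222629175, 9465401269862625, 873923262374925, -4529228186843400,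
  6954897481893150, -2901594278048125, -4194593527779375, 6723508761275625, -2957260511470000,
  -1319307926904375, 2078630558293750, -911164470771875, 146347735747500]

/-- test list -/
def n1 : List ℤ :=
  [0, 12611097722880000, 13480828600320000, -23700166410240000, -25657060884480000,
  10871635968000000, 12176232284160000, 217432719360000]

/-- test list -/
def n2 : List ℤ :=
  [0, -6305548861440000, -2913598439424000, 13619985540710400, 5570626270003200,
  -7989565272883200, -2128666322534400, 88060251340800, 58706834227200]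

/-- test list -/
def n3 : List ℤ :=
  [0, 0, -2609192632320000, -869730877440000, 5653250703360000, 1304596316160000,
  -2609192632320000]

/-- weight list -/
def wt : List ℤ :=
  [4573750, 4573750, -9147500, -9147500, 4573750, 4573750]

/-- factor -/
def fac : List ℤ := [2500, -1000, -1200, -280, -20]

lemma e0 : eqL n0 (addL (smulL DD N.n0) (smulL (-1) (mulL B (dnL 625 0 1 3 0 0)))) = true := by
  decide +kernel

lemma e1 : eqL n1 (smulL DD N.n1) = true := by
  decide +kernel

lemma e2 : eqL n2 (smulL DD N.n2) = true := by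
  decide +kernel

lemma e3 : eqL n3 (smulL DD N.n3) = true := by
  decide +kernel

lemma e4 : eqL wt (smulL E (mulL (powZ 1) (dnL 625 0 1 3 0 0))) = true := by
  decide +kernel

lemma hv : vanT n1 n2 n3 [] [] 0 0 = true := by
  decide +kernel

lemma h0 : chkL05 n0 n1 n2 n3 wt 0 = true := by
  decide +kernel

lemma h6 : chkLp5 n0 n1 n2 n3 wt 0 6 1 2 128 = true := by
  decide +kernel

lemma h5 : chkLp5 n0 n1 n2 n3 wt 0 5 1 2 64 = true := by
  decide +kernel

lemma h4 : chkLp5 n0 n1 n2 n3 wt 0 4 1 2 32 = true := by
  decide +kernel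

lemma h3 : chkLp5 n0 n1 n2 n3 wt 0 3 1 2 16 = true := by
  decide +kernel

lemma h2 : chkLp5 n0 n1 n2 n3 wt 0 2 1 2 8 = true := by
  decide +kernel

lemma r1 : chkN 1 1 4 4 (addL (rW5 n1 n2 n3 wt 0) (rM n0 n1 n2 n3 [] [] 0)) = true := by
  decide +kernel

lemma r2 : chkN 1 1 4 4 (addL (rW5 n1 n2 n3 wt 0)
      (smulL (-1) (rM n0 n1 n2 n3 [] [] 0))) = true := by
  decide +kernel

lemma d0 : eqL r.n0 (mulL fac N.n0) = true := by
  decide +kernel

lemma d1 : eqL r.n1 (mulL fac N.n1) = true := by
  decide +kernel

lemma d2 : eqL r.n2 (mulL fac N.n2) = true := by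
  decide +kernel

lemma d3 : eqL r.n3 (mulL fac N.n3) = true := by
  decide +kernel

lemma dd : eqL DnL (mulL fac (dnL 625 0 1 3 0 0)) = true := by
  decide +kernel

theorem eq {T : ℝ} (h0 : 0 < T) (h1 : T < 1) :
    G4 r T / ev DnL T = qf N 625 0 1 3 0 0 T :=
  G4_div_eq (by norm_num) d0 d1 d2 d3 dd h0 h1

theorem bd {T : ℝ} (hT0 : 0 < T) (hT1 : T < 1) :
    |(DD : ℝ) * (G4 r T / ev DnL T) - ev B T| ≤ E * (1 - T) ^ 1 := by
  rw [eq hT0 hT1]
  exact qf_bd (by norm_num) e0 e1 e2 e3 e4 (q := 1) (by norm_num) (by norm_num) hv h0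
    h6 h5 h4 h3 h2 r1 r2 hT0 hT1

end Vale.Agent.P224.SP.K25
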