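import Vale.Agent.P224.SP.Piv.Dn

/-!
Column function z 0 5 2 2: kernel-checked polynomial approximant on `(0, 1)`.
-/

namespace Vale.Agent.P224.SP.K26

open Vale.Agent.P224.SP

/-- coefficient lists over `DnL` -/
def r : Q4 := ⟨
  [0, 0, -364500000, -46800000, 1233360000, 297108000, -1388217600, -611413920, 425230560,
  348953760, 93147840, 12074400, 974880, 77760, 4320],
  [0, 0, 729000000, 1166400000, -933120000, -2239488000, -314928000, 979776000, 513216000,
  93312000, 5832000],
  [0, 0, -364500000, -383400000, 640710000, 751572000, -183616200, -346613040, -110139480,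
  -7153920, 2586600, 524880, 29160],
  [0, 0, 0, -108000000, -64800000, 257040000, 161136000, -129600000, -95040000, -19440000,
  -1296000]⟩

/-- reduced coefficient lists -/
def N : Q4 := ⟨
  [0, 0, -145800, -77040, 392544, 222552, -287640, -209448, -23688, -864, -216],
  [0, 0, 291600, 583200, 0, -583200, -291600],
  [0, 0, -145800, -211680, 101628, 223344, 39798, -5832, -1458],
  [0, 0, 0, -43200, -43200, 64800, 64800]⟩

/-- approximant (times `DD`) -/
def B : List ℤ :=
  [380, -150792, -90025886936, 241294950617, -61207423993, -319640466517, 607296180315,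
  -598556058416, 77809524208, 574599181935, -878588564201, 709565081852, -348936483362,
  98824829207, -12434714297]

/-- error (times `DD`) -/
def E : ℤ := 386

/-- test list -/
def n0 : List ℤ :=
  [-237500, 93770000, -2879075343535000, -1589297049758625, 7639590336476675, 4644315688927775,
  -5525615112902375, -4527467828860975, -215143533881475, 85563922302450, -542114739503450,
  377921897843750, 98008879835000, -364706130593750, 222079159616250, 22850964826250,
  -94554265592500, 46222125383125, -7771696435625]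

/-- test list -/
def n1 : List ℤ :=
  [0, 0, 5870683422720000, 11741366845440000, 0, -11741366845440000, -5870683422720000]

/-- test list -/
def n2 : List ℤ :=
  [0, 0, -2935341711360000, -4261681299456000, 2046041889177600, 4496508636364800,
  801239570841600, -117413668454400, -29353417113600]

/-- test list -/
def n3 : List ℤ :=
  [0, 0, 0, -869730877440000, -869730877440000, 1304596316160000, 1304596316160000]

/-- weight list -/
def wt : List ℤ :=
  [241250, 241250, -482500, -482500, 241250, 241250]

/-- factor -/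
def fac : List ℤ := [2500, -1000, -1200, -280, -20]

lemma e0 : eqL n0 (addL (smulL DD N.n0) (smulL (-1) (mulL B (dnL 625 0 1 3 0 0)))) = true := by
  decide +kernel

lemma e1 : eqL n1 (smulL DD N.n1) = true := by
  decide +kernel

lemma e2 : eqL n2 (smulL DD N.n2) = true := by
  decide +kernel

lemma e3 : eqL n3 (smulL DD N.n3) = true := by
  decide +kernel

lemma e4 : eqL wt (smulL E (mulL (powZ 1) (dnL 625 0 1 3 0 0))) = true := by
  decide +kernel

lemma hv : vanT n1 n2 n3 [] [] 0 0 = true := by
  decide +kernel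

lemma h0 : chkL05 n0 n1 n2 n3 wt 0 = true := by
  decide +kernel

lemma h6 : chkLp5 n0 n1 n2 n3 wt 0 6 1 2 128 = true := by
  decide +kernel

lemma h5 : chkLp5 n0 n1 n2 n3 wt 0 5 1 2 64 = true := by
  decide +kernel

lemma h4 : chkLp5 n0 n1 n2 n3 wt 0 4 1 2 32 = true := by
  decide +kernel

lemma h3 : chkLp5 n0 n1 n2 n3 wt 0 3 1 2 16 = true := by
  decide +kernel

lemma h2 : chkLp5 n0 n1 n2 n3 wt 0 2 1 2 8 = true := by
  decide +kernel

lemma r1 : chkN 1 1 4 4 (addL (rW5 n1 n2 n3 wt 0) (rM n0 n1 n2 n3 [] [] 0)) = true := by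
  decide +kernel

lemma r2 : chkN 1 1 4 4 (addL (rW5 n1 n2 n3 wt 0)
      (smulL (-1) (rM n0 n1 n2 n3 [] [] 0))) = true := by
  decide +kernel

lemma d0 : eqL r.n0 (mulL fac N.n0) = true := by
  decide +kernel

lemma d1 : eqL r.n1 (mulL fac N.n1) = true := by
  decide +kernel

lemma d2 : eqL r.n2 (mulL fac N.n2) = true := by
  decide +kernel

lemma d3 : eqL r.n3 (mulL fac N.n3) = true := by
  decide +kernel

lemma dd : eqL DnL (mulL fac (dnL 625 0 1 3 0 0)) = true := by
  decide +kernel

theorem eq {T : ℝ} (h0 : 0 < T) (h1 : T < 1) :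
    G4 r T / ev DnL T = qf N 625 0 1 3 0 0 T :=
  G4_div_eq (by norm_num) d0 d1 d2 d3 dd h0 h1

theorem bd {T : ℝ} (hT0 : 0 < T) (hT1 : T < 1) :
    |(DD : ℝ) * (G4 r T / ev DnL T) - ev B T| ≤ E * (1 - T) ^ 1 := by
  rw [eq hT0 hT1]
  exact qf_bd (by norm_num) e0 e1 e2 e3 e4 (q := 1) (by norm_num) (by norm_num) hv h0
    h6 h5 h4 h3 h2 r1 r2 hT0 hT1

end Vale.Agent.P224.SP.K26
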