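import Vale.Agent.P224.SP.Piv.Dn

/-!
Column function z 0 5 3 1: kernel-checked polynomial approximant on `(0, 1)`.
-/

namespace Vale.Agent.P224.SP.K28

open Vale.Agent.P224.SP

/-- coefficient lists over `DnL` -/
def r : Q4 := ⟨
  [0, 0, -243000000, -97200000, 699840000, 307152000, -656294400, -323326080, 184913280,
  113996160, 14696640, -622080, -155520],
  [0, 0, 486000000, 777600000, -622080000, -1492992000, -209952000, 653184000, 342144000,
  62208000, 3888000],
  [0, 0, -243000000, -291600000, 383940000, 557928000, -32464800, -248520960, -107425440,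
  -17807040, -1049760],
  []⟩

/-- reduced coefficient lists -/
def N : Q4 := ⟨
  [0, 0, -97200, -77760, 104976, 77760, -7776],
  [0, 0, 194400, 388800, 194400],
  [0, 0, -97200, -155520, -52488],
  []⟩

/-- approximant (times `DD`) -/
def B : List ℤ :=
  [-327, 130070, -60033288843, 24276605872, 6279269865, 228697187449, -194476997891,
  -362115032275, 1049969196284, -1495850232275, 1428003609762, -943722438801, 415756696392,
  -110015593279, 13230887997]

/-- error (times `DD`) -/
def E : ℤ := 332

/-- test list -/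
def n0 : List ℤ :=
  [204375, -80885000, -1919373831096250, -1505646928302000, 2116696536700450, 1399557871235125,
  -324799462234200, 326482400380000, -82038833651875, -151233205011250, 321079786565000,
  -260271592780000, 27302857155000, 138890399560000, -130597748644375, 52221135803125,
  -8269304998125]

/-- test list -/
def n1 : List ℤ :=
  [0, 0, 3913788948480000, 7827577896960000, 3913788948480000]

/-- test list -/
def n2 : List ℤ :=
  [0, 0, -1956894474240000, -3131031158784000, -1056723016089600]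

/-- test list -/
def n3 : List ℤ :=
  []

/-- weight list -/
def wt : List ℤ :=
  [207500, 207500, -207500, -207500]

/-- factor -/
def fac : List ℤ := [2500, -1000, -3700, 720, 1180, 280, 20]

lemma e0 : eqL n0 (addL (smulL DD N.n0) (smulL (-1) (mulL B (dnL 625 0 0 2 0 0)))) = true := by
  decide +kernel

lemma e1 : eqL n1 (smulL DD N.n1) = true := by
  decide +kernel

lemma e2 : eqL n2 (smulL DD N.n2) = true := by
  decide +kernel

lemma e3 : eqL n3 (smulL DD N.n3) = true := by
  decide +kernel

lemma e4 : eqL wt (smulL E (mulL (powZ 1) (dnL 625 0 0 2 0 0))) = true := by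
  decide +kernel

lemma hv : vanT n1 n2 n3 [] [] 0 0 = true := by
  decide +kernel

lemma h0 : chkL05 n0 n1 n2 n3 wt 0 = true := by
  decide +kernel

lemma h6 : chkLp5 n0 n1 n2 n3 wt 0 6 1 2 128 = true := by
  decide +kernel

lemma h5 : chkLp5 n0 n1 n2 n3 wt 0 5 1 2 64 = true := by
  decide +kernel

lemma h4 : chkLp5 n0 n1 n2 n3 wt 0 4 1 2 32 = true := by
  decide +kernel

lemma h3 : chkLp5 n0 n1 n2 n3 wt 0 3 1 2 16 = true := by
  decide +kernel

lemma h2 : chkLp5 n0 n1 n2 n3 wt 0 2 1 2 8 = true := by
  decide +kernel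

lemma r1 : chkN 2 1 4 4 (addL (rW5 n1 n2 n3 wt 0) (rM n0 n1 n2 n3 [] [] 0)) = true := by
  decide +kernel

lemma r2 : chkN 2 1 4 4 (addL (rW5 n1 n2 n3 wt 0)
      (smulL (-1) (rM n0 n1 n2 n3 [] [] 0))) = true := by
  decide +kernel

lemma d0 : eqL r.n0 (mulL fac N.n0) = true := by
  decide +kernel

lemma d1 : eqL r.n1 (mulL fac N.n1) = true := by
  decide +kernel

lemma d2 : eqL r.n2 (mulL fac N.n2) = true := by
  decide +kernel

lemma d3 : eqL r.n3 (mulL fac N.n3) = true := by
  decide +kernel

lemma dd : eqL DnL (mulL fac (dnL 625 0 0 2 0 0)) = true := by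
  decide +kernel

theorem eq {T : ℝ} (h0 : 0 < T) (h1 : T < 1) :
    G4 r T / ev DnL T = qf N 625 0 0 2 0 0 T :=
  G4_div_eq (by norm_num) d0 d1 d2 d3 dd h0 h1

theorem bd {T : ℝ} (hT0 : 0 < T) (hT1 : T < 1) :
    |(DD : ℝ) * (G4 r T / ev DnL T) - ev B T| ≤ E * (1 - T) ^ 1 := by
  rw [eq hT0 hT1]
  exact qf_bd (by norm_num) e0 e1 e2 e3 e4 (q := 2) (by norm_num) (by norm_num) hv h0
    h6 h5 h4 h3 h2 r1 r2 hT0 hT1

end Vale.Agent.P224.SP.K28
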