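import Vale.Agent.P224.SP.Piv.Dn

/-!
Column function z 1 5 1 0: kernel-checked polynomial approximant on `(0, 1)`.
-/

namespace Vale.Agent.P224.SP.K29

open Vale.Agent.P224.SP

/-- coefficient lists over `DnL` -/
def r : Q4 := ⟨
  [-103500000, 335850000, 132180000, -1035576000, -11002800, 1525169040, -208267920,
  -1144927008, 239814432, 381966768, -48764544, -67946496, -1476720, 5427120, 1020144, 36576,
  -2592],
  [454500000, 250200000, -1287360000, -782604000, 1160712000, 856612800, -306648000,
  -377726400, 11642400, 66542400, -36259200, -14536800, 3283200, 1512000, 129600],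
  [-159750000, 24300000, 291555000, 45283500, 30627900, -329118120, -83051640, 172137384,
  12162744, -15314400, 8345016, 3385548, -338724, -206712, -17496],
  [-135000000, -36000000, 730800000, -148680000, -1164240000, 430560000, 688320000, -270000000,
  -132120000, 23040000, 12240000, 1080000]⟩

/-- reduced coefficient lists -/
def N : Q4 := ⟨
  [-207000, 381900, 782460, -868980, -1294992, 841824, 893772, -410556, -191808, 56460, 17568,
  -648],
  [909000, 1773000, -19800, -1785600, -927000, 88200, 81000, -108000, -43200, 32400],
  [-319500, -398700, -630, 175365, 486666, 81378, -74520, 49131, 5184, -4374],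
  [-270000, -450000, 810000, 900000, -810000, -450000, 270000]⟩

/-- approximant (times `DD`) -/
def B : List ℤ :=
  [200840632937, -106978858418, -823575401061, 2047661959147, -1166288875579, -9793534985820,
  40236935991003, -88275693412940, 133731651933964, -148011162772139, 119888533672770,
  -69255311725447, 27014482180880, -6374612468431, 687052129134]

/-- error (times `DD`) -/
def E : ℤ := 695143

/-- test list -/
def n0 : List ℤ :=
  [-4795087432328125, 6140090547251875, 17446719509832000, -15797502609262875,
  -33568482416042025, 41863752998933925, -11397012815100725, -14166273802483950,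
  59195130271875775, -88218462505118000, 35433978852747475, 62148038691807150,
  -96571828908468750, 41276773216756250, 20777032684268750, -31099378634340625,
  13479550253215625, -2147037903543750]

/-- test list -/
def n1 : List ℤ :=
  [18300587212800000, 35695204761600000, -398626652160000, -35948876267520000,
  -18662975078400000, 1775700541440000, 1630745395200000, -2174327193600000, -869730877440000,
  652298158080000]

/-- test list -/
def n2 : List ℤ :=
  [-6432384614400000, -8026891223040000, -12683575296000, 3530563780608000, 9797880722227200,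
  1638355540377600, -1500285763584000, 989137679155200, 104367705292800, -88060251340800]

/-- test list -/
def n3 : List ℤ :=
  [-5435817984000000, -9059696640000000, 16307453952000000, 18119393280000000,
  -16307453952000000, -9059696640000000, 5435817984000000]

/-- weight list -/
def wt : List ℤ :=
  [2172321875, 0, -6516965625, 0, 6516965625, 0, -2172321875]

/-- factor -/
def fac : List ℤ := [500, -700, -40, 184, 52, 4]

lemma e0 : eqL n0 (addL (smulL DD N.n0) (smulL (-1) (mulL B (dnL 3125 0 0 3 0 0)))) = true := by
  decide +kernel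

lemma e1 : eqL n1 (smulL DD N.n1) = true := by
  decide +kernel

lemma e2 : eqL n2 (smulL DD N.n2) = true := by
  decide +kernel

lemma e3 : eqL n3 (smulL DD N.n3) = true := by
  decide +kernel

lemma e4 : eqL wt (smulL E (mulL (powZ 3) (dnL 3125 0 0 3 0 0))) = true := by
  decide +kernel

lemma hv : vanT n1 n2 n3 [] [] 0 0 = true := by
  decide +kernel

lemma h0 : chkL05 n0 n1 n2 n3 wt 0 = true := by
  decide +kernel

lemma h6 : chkLp5 n0 n1 n2 n3 wt 0 6 1 2 128 = true := by
  decide +kernel

lemma h5 : chkLp5 n0 n1 n2 n3 wt 0 5 1 2 64 = true := by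
  decide +kernel

lemma h4 : chkLp5 n0 n1 n2 n3 wt 0 4 1 2 32 = true := by
  decide +kernel

lemma h3 : chkLp5 n0 n1 n2 n3 wt 0 3 1 2 16 = true := by
  decide +kernel

lemma h2 : chkLp5 n0 n1 n2 n3 wt 0 2 1 2 8 = true := by
  decide +kernel

lemma r1 : chkN 1 1 4 4 (addL (rW5 n1 n2 n3 wt 0) (rM n0 n1 n2 n3 [] [] 0)) = true := by
  decide +kernel

lemma r2 : chkN 1 1 4 4 (addL (rW5 n1 n2 n3 wt 0)
      (smulL (-1) (rM n0 n1 n2 n3 [] [] 0))) = true := by
  decide +kernel

lemma d0 : eqL r.n0 (mulL fac N.n0) = true := by
  decide +kernel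

lemma d1 : eqL r.n1 (mulL fac N.n1) = true := by
  decide +kernel

lemma d2 : eqL r.n2 (mulL fac N.n2) = true := by
  decide +kernel

lemma d3 : eqL r.n3 (mulL fac N.n3) = true := by
  decide +kernel

lemma dd : eqL DnL (mulL fac (dnL 3125 0 0 3 0 0)) = true := by
  decide +kernel

theorem eq {T : ℝ} (h0 : 0 < T) (h1 : T < 1) :
    G4 r T / ev DnL T = qf N 3125 0 0 3 0 0 T :=
  G4_div_eq (by norm_num) d0 d1 d2 d3 dd h0 h1

theorem bd {T : ℝ} (hT0 : 0 < T) (hT1 : T < 1) :
    |(DD : ℝ) * (G4 r T / ev DnL T) - ev B T| ≤ E * (1 - T) ^ 3 := by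
  rw [eq hT0 hT1]
  exact qf_bd (by norm_num) e0 e1 e2 e3 e4 (q := 1) (by norm_num) (by norm_num) hv h0
    h6 h5 h4 h3 h2 r1 r2 hT0 hT1

end Vale.Agent.P224.SP.K29
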