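import Vale.Agent.P224.SP.Piv.Dn

/-!
Column function z 1 5 1 1: kernel-checked polynomial approximant on `(0, 1)`.
-/

namespace Vale.Agent.P224.SP.K30

open Vale.Agent.P224.SP

/-- coefficient lists over `DnL` -/
def r : Q4 := ⟨
  [227250000, -187350000, -274980000, 598686000, -512359200, -1188695040, 1518393360,
  1163306208, -1291860240, -518528112, 364869504, 153796848, -28106112, -21116832, -3215088,
  -99072, 7776],
  [-454500000, -88200000, 1402560000, 307944000, -1533096000, -366796800, 779860800, 172483200,
  -316058400, -40449600, 138729600, 20116800, -17107200, -5097600, -388800],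
  [227250000, -24300000, -434655000, -67896000, 131471100, 368898120, -137065680, -139179384,
  110053440, 9190872, -38390112, -8059752, 1937844, 692064, 52488],
  [0, -45000000, -387000000, 543600000, 865440000, -1036080000, -596880000, 619200000,
  145440000, -79560000, -27000000, -2160000]⟩

/-- reduced coefficient lists -/
def N : Q4 := ⟨
  [454500, 261600, -147360, 844740, 2592, -2282796, -456552, 1417188, 196860, -242676, -50040,
  1944],
  [-909000, -1449000, 703800, 1819800, 165600, -457200, 201600, 334800, -10800, -97200],
  [454500, 587700, -10170, -270270, -379791, 123453, -35865, -150741, 2430, 13122],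
  [0, -90000, -900000, -180000, 1440000, 270000, -540000]⟩

/-- approximant (times `DD`) -/
def B : List ℤ :=
  [56133838845, -15747337948, 699351339310, -1877133997317, 3138034853568, -1140294187663,
  -15165882139435, 50582723167387, -91268932782171, 112257142180533, -98549339941286,
  61008232690149, -25344807952446, 6343449386245, -722929117771]

/-- error (times `DD`) -/
def E : ℤ := 91873

/-- test list -/
def n0 : List ℤ :=
  [8974875360009375, 4789659338635625, -5530845040965125, 16288700515064250, 1336747785149525,
  -56401753017373200, 25339000861412225, 13524797277388975, -39290735066206750,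
  73137314306149550, -47876223957577375, -33906820315887075, 80346836016637500,
  -46201198931462500, -10253837105546875, 26510147334450000, -13045818852912500,
  2259153493034375]

/-- test list -/
def n1 : List ℤ :=
  [-18300587212800000, -29172223180800000, 14169365544960000, 36637413212160000,
  3333968363520000, -9204651786240000, 4058744094720000, 6740414300160000, -217432719360000,
  -1956894474240000]

/-- test list -/
def n2 : List ℤ :=
  [9150293606400000, 11831963811840000, -204749144064000, -5441253801984000, -7646202770227200,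
  2485437176217600, -722057822208000, -3034817180467200, 48922361856000, 264180754022400]

/-- test list -/
def n3 : List ℤ :=
  [0, -1811939328000000, -18119393280000000, -3623878656000000, 28991029248000000,
  5435817984000000, -10871635968000000]

/-- weight list -/
def wt : List ℤ :=
  [287103125, 287103125, -574206250, -574206250, 287103125, 287103125]

/-- factor -/
def fac : List ℤ := [500, -700, -40, 184, 52, 4]

lemma e0 : eqL n0 (addL (smulL DD N.n0) (smulL (-1) (mulL B (dnL 3125 0 0 3 0 0)))) = true := by
  decide +kernel

lemma e1 : eqL n1 (smulL DD N.n1) = true := by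
  decide +kernel

lemma e2 : eqL n2 (smulL DD N.n2) = true := by
  decide +kernel

lemma e3 : eqL n3 (smulL DD N.n3) = true := by
  decide +kernel

lemma e4 : eqL wt (smulL E (mulL (powZ 2) (dnL 3125 0 0 3 0 0))) = true := by
  decide +kernel

lemma hv : vanT n1 n2 n3 [] [] 0 0 = true := by
  decide +kernel

lemma h0 : chkL05 n0 n1 n2 n3 wt 0 = true := by
  decide +kernel

lemma h6 : chkLp5 n0 n1 n2 n3 wt 0 6 1 2 128 = true := by
  decide +kernel

lemma h5 : chkLp5 n0 n1 n2 n3 wt 0 5 1 2 64 = true := by
  decide +kernel

lemma h4 : chkLp5 n0 n1 n2 n3 wt 0 4 1 2 32 = true := by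
  decide +kernel

lemma h3 : chkLp5 n0 n1 n2 n3 wt 0 3 1 2 16 = true := by
  decide +kernel

lemma h2 : chkLp5 n0 n1 n2 n3 wt 0 2 1 2 8 = true := by
  decide +kernel

lemma r1 : chkN 1 1 4 4 (addL (rW5 n1 n2 n3 wt 0) (rM n0 n1 n2 n3 [] [] 0)) = true := by
  decide +kernel

lemma r2 : chkN 1 1 4 4 (addL (rW5 n1 n2 n3 wt 0)
      (smulL (-1) (rM n0 n1 n2 n3 [] [] 0))) = true := by
  decide +kernel

lemma d0 : eqL r.n0 (mulL fac N.n0) = true := by
  decide +kernel

lemma d1 : eqL r.n1 (mulL fac N.n1) = true := by
  decide +kernel

lemma d2 : eqL r.n2 (mulL fac N.n2) = true := by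
  decide +kernel

lemma d3 : eqL r.n3 (mulL fac N.n3) = true := by
  decide +kernel

lemma dd : eqL DnL (mulL fac (dnL 3125 0 0 3 0 0)) = true := by
  decide +kernel

theorem eq {T : ℝ} (h0 : 0 < T) (h1 : T < 1) :
    G4 r T / ev DnL T = qf N 3125 0 0 3 0 0 T :=
  G4_div_eq (by norm_num) d0 d1 d2 d3 dd h0 h1

theorem bd {T : ℝ} (hT0 : 0 < T) (hT1 : T < 1) :
    |(DD : ℝ) * (G4 r T / ev DnL T) - ev B T| ≤ E * (1 - T) ^ 2 := by
  rw [eq hT0 hT1]
  exact qf_bd (by norm_num) e0 e1 e2 e3 e4 (q := 1) (by norm_num) (by norm_num) hv h0
    h6 h5 h4 h3 h2 r1 r2 hT0 hT1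

end Vale.Agent.P224.SP.K30
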