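import Vale.Agent.P224.SP.Piv.Dn

/-!
Column function z 1 5 1 2: kernel-checked polynomial approximant on `(0, 1)`.
-/

namespace Vale.Agent.P224.SP.K31

open Vale.Agent.P224.SP

/-- coefficient lists over `DnL` -/
def r : Q4 := ⟨
  [0, 159750000, -209100000, -548730000, 569586000, 667300800, -875348640, -182942400,
  824369088, -84097296, -381590688, -37550352, 68738256, 26180832, 3353760, 88416, -7776],
  [0, -319500000, -295200000, 728460000, 663264000, -562320000, -506260800, 244267200,
  229536000, -112255200, -116956800, 15688800, 25228800, 5659200, 388800],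
  [0, 159750000, -6300000, -341955000, 11214000, 214491600, 122902920, -156115800, -108021024,
  55415448, 47920320, 4481424, -2967408, -763992, -52488],
  [0, 0, 180000000, -162000000, -365400000, 374040000, 204840000, -261000000, -33480000,
  47880000, 14040000, 1080000]⟩

/-- reduced coefficient lists -/
def N : Q4 := ⟨
  [0, 319500, 29100, -1031160, -419700, 620592, -541560, -812964, 290784, 311976, 47376, -1944],
  [0, -639000, -1485000, -673200, 500400, 135000, -376200, -129600, 151200, 97200],
  [0, 319500, 434700, -49770, -130050, 49734, 275580, 127116, -20412, -13122],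
  [0, 0, 360000, 180000, -450000, 0, 270000]⟩

/-- approximant (times `DD`) -/
def B : List ℤ :=
  [-6168, 39462810861, -385265800292, 662820983441, -858790490426, 1920997626251,
  -1667441768839, -4720542622174, 15519180238769, -23568453155297, 23396541900983,
  -15862102319731, 7109936749221, -1904366117218, 231048882875]

/-- error (times `DD`) -/
def E : ℤ := 6259

/-- test list -/
def n0 : List ℤ :=
  [19275000, 6309063388284375, 1419852214635625, -19589405388734500, -8491357909621250,
  9532219410108900, -17721794860342625, -1308797340231300, 11241053010372175,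
  -16094149531073925, 18053240708431075, 2644161622715200, -19202507305250000,
  14888502899265625, 44817315146875, -6531203269350000, 3785060839353125, -722027758984375]

/-- test list -/
def n1 : List ℤ :=
  [0, -12864769228800000, -29896998912000000, -13553306173440000, 10074382663680000,
  2717908992000000, -7573906391040000, -2609192632320000, 3044058071040000, 1956894474240000]

/-- test list -/
def n2 : List ℤ :=
  [0, 6432384614400000, 8751666954240000, -1002002448384000, -2618252328960000,
  1001277672652800, 5548158222336000, 2559183106867200, -410947839590400, -264180754022400]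

/-- test list -/
def n3 : List ℤ :=
  [0, 0, 7247757312000000, 3623878656000000, -9059696640000000, 0, 5435817984000000]

/-- weight list -/
def wt : List ℤ :=
  [19559375, 39118750, 0, -39118750, -19559375]

/-- factor -/
def fac : List ℤ := [500, -700, -40, 184, 52, 4]

lemma e0 : eqL n0 (addL (smulL DD N.n0) (smulL (-1) (mulL B (dnL 3125 0 0 3 0 0)))) = true := by
  decide +kernel

lemma e1 : eqL n1 (smulL DD N.n1) = true := by
  decide +kernel

lemma e2 : eqL n2 (smulL DD N.n2) = true := by
  decide +kernel

lemma e3 : eqL n3 (smulL DD N.n3) = true := by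
  decide +kernel

lemma e4 : eqL wt (smulL E (mulL (powZ 1) (dnL 3125 0 0 3 0 0))) = true := by
  decide +kernel

lemma hv : vanT n1 n2 n3 [] [] 0 0 = true := by
  decide +kernel

lemma h0 : chkL05 n0 n1 n2 n3 wt 0 = true := by
  decide +kernel

lemma h6 : chkLp5 n0 n1 n2 n3 wt 0 6 1 2 128 = true := by
  decide +kernel

lemma h5 : chkLp5 n0 n1 n2 n3 wt 0 5 1 2 64 = true := by
  decide +kernel

lemma h4 : chkLp5 n0 n1 n2 n3 wt 0 4 1 2 32 = true := by
  decide +kernel

lemma h3 : chkLp5 n0 n1 n2 n3 wt 0 3 1 2 16 = true := by
  decide +kernel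

lemma h2 : chkLp5 n0 n1 n2 n3 wt 0 2 1 2 8 = true := by
  decide +kernel

lemma r1 : chkN 1 1 4 4 (addL (rW5 n1 n2 n3 wt 0) (rM n0 n1 n2 n3 [] [] 0)) = true := by
  decide +kernel

lemma r2 : chkN 1 1 4 4 (addL (rW5 n1 n2 n3 wt 0)
      (smulL (-1) (rM n0 n1 n2 n3 [] [] 0))) = true := by
  decide +kernel

lemma d0 : eqL r.n0 (mulL fac N.n0) = true := by
  decide +kernel

lemma d1 : eqL r.n1 (mulL fac N.n1) = true := by
  decide +kernel

lemma d2 : eqL r.n2 (mulL fac N.n2) = true := by
  decide +kernel

lemma d3 : eqL r.n3 (mulL fac N.n3) = true := by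
  decide +kernel

lemma dd : eqL DnL (mulL fac (dnL 3125 0 0 3 0 0)) = true := by
  decide +kernel

theorem eq {T : ℝ} (h0 : 0 < T) (h1 : T < 1) :
    G4 r T / ev DnL T = qf N 3125 0 0 3 0 0 T :=
  G4_div_eq (by norm_num) d0 d1 d2 d3 dd h0 h1

theorem bd {T : ℝ} (hT0 : 0 < T) (hT1 : T < 1) :
    |(DD : ℝ) * (G4 r T / ev DnL T) - ev B T| ≤ E * (1 - T) ^ 1 := by
  rw [eq hT0 hT1]
  exact qf_bd (by norm_num) e0 e1 e2 e3 e4 (q := 1) (by norm_num) (by norm_num) hv h0
    h6 h5 h4 h3 h2 r1 r2 hT0 hT1

end Vale.Agent.P224.SP.K31
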