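import Vale.Agent.P224.SP.Piv.Dn

/-!
Column function z 1 5 1 3: kernel-checked polynomial approximant on `(0, 1)`.
-/

namespace Vale.Agent.P224.SP.K32

open Vale.Agent.P224.SP

/-- coefficient lists over `DnL` -/
def r : Q4 := ⟨
  [0, 0, 36000000, -68100000, -256680000, 16296000, 365848800, 77996160, -127304160, 37080960,
  22534848, -52766880, -39243264, -10480320, -1158816, -25920, 2592],
  [0, 0, -72000000, -115200000, 92160000, 221184000, 14904000, -122688000, -29952000, 40550400,
  6422400, -21772800, -11404800, -2073600, -129600],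
  [0, 0, 36000000, -1800000, -110880000, -34056000, 90444600, 88711920, -10199520, -43446960,
  -16704144, 265680, 1368288, 278640, 17496],
  [0, 0, 0, 90000000, 54000000, -169200000, -107280000, 68400000, 52560000, 10800000, 720000]⟩

/-- reduced coefficient lists -/
def N : Q4 := ⟨
  [0, 0, 72000, -35400, -557160, -776760, -394800, -250728, -293136, -125760, -14904, 648],
  [0, 0, -144000, -432000, -432000, -144000, -32400, -97200, -97200, -32400],
  [0, 0, 72000, 97200, -79920, -198720, -146970, -25506, 12798, 4374],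
  [0, 0, 0, 180000, 360000, 180000]⟩

/-- approximant (times `DD`) -/
def B : List ℤ :=
  [355, -140749, 8902162408, -175149360636, 71290587656, -148848994919, 520686466855,
  -670735793386, 8040238290, 721784112129, -1010014406535, 785591519882, -377789195573,
  105423539643, -13126910908]

/-- error (times `DD`) -/
def E : ℤ := 360

/-- test list -/
def n0 : List ℤ :=
  [-1109375, 436512500, 1421733521068750, -248810837855000, -9881327563068875,
  -14227234511907625, -8301067241003750, -6660531407391350, -4054867386557450,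
  -201832951292000, -1889816063141800, 235105728930350, 1028980448134375, -996300331359375,
  139476121300000, 315310341775000, -206383771621875, 41021596587500]

/-- test list -/
def n1 : List ℤ :=
  [0, 0, -2899102924800000, -8697308774400000, -8697308774400000, -2899102924800000,
  -652298158080000, -1956894474240000, -1956894474240000, -652298158080000]

/-- test list -/
def n2 : List ℤ :=
  [0, 0, 1449551462400000, 1956894474240000, -1609002123264000, -4000762036224000,
  -2958896922624000, -513503605555200, 257657772441600, 88060251340800]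

/-- test list -/
def n3 : List ℤ :=
  [0, 0, 0, 3623878656000000, 7247757312000000, 3623878656000000]

/-- weight list -/
def wt : List ℤ :=
  [1125000, 2250000, 0, -2250000, -1125000]

/-- factor -/
def fac : List ℤ := [500, -700, -40, 184, 52, 4]

lemma e0 : eqL n0 (addL (smulL DD N.n0) (smulL (-1) (mulL B (dnL 3125 0 0 3 0 0)))) = true := by
  decide +kernel

lemma e1 : eqL n1 (smulL DD N.n1) = true := by
  decide +kernel

lemma e2 : eqL n2 (smulL DD N.n2) = true := by
  decide +kernel

lemma e3 : eqL n3 (smulL DD N.n3) = true := by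
  decide +kernel

lemma e4 : eqL wt (smulL E (mulL (powZ 1) (dnL 3125 0 0 3 0 0))) = true := by
  decide +kernel

lemma hv : vanT n1 n2 n3 [] [] 0 0 = true := by
  decide +kernel

lemma h0 : chkL05 n0 n1 n2 n3 wt 0 = true := by
  decide +kernel

lemma h6 : chkLp5 n0 n1 n2 n3 wt 0 6 1 2 128 = true := by
  decide +kernel

lemma h5 : chkLp5 n0 n1 n2 n3 wt 0 5 1 2 64 = true := by
  decide +kernel

lemma h4 : chkLp5 n0 n1 n2 n3 wt 0 4 1 2 32 = true := by
  decide +kernel

lemma h3 : chkLp5 n0 n1 n2 n3 wt 0 3 1 2 16 = true := by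
  decide +kernel

lemma h2 : chkLp5 n0 n1 n2 n3 wt 0 2 1 2 8 = true := by
  decide +kernel

lemma r1 : chkN 2 1 4 4 (addL (rW5 n1 n2 n3 wt 0) (rM n0 n1 n2 n3 [] [] 0)) = true := by
  decide +kernel

lemma r2 : chkN 2 1 4 4 (addL (rW5 n1 n2 n3 wt 0)
      (smulL (-1) (rM n0 n1 n2 n3 [] [] 0))) = true := by
  decide +kernel

lemma d0 : eqL r.n0 (mulL fac N.n0) = true := by
  decide +kernel

lemma d1 : eqL r.n1 (mulL fac N.n1) = true := by
  decide +kernel

lemma d2 : eqL r.n2 (mulL fac N.n2) = true := by
  decide +kernel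

lemma d3 : eqL r.n3 (mulL fac N.n3) = true := by
  decide +kernel

lemma dd : eqL DnL (mulL fac (dnL 3125 0 0 3 0 0)) = true := by
  decide +kernel

theorem eq {T : ℝ} (h0 : 0 < T) (h1 : T < 1) :
    G4 r T / ev DnL T = qf N 3125 0 0 3 0 0 T :=
  G4_div_eq (by norm_num) d0 d1 d2 d3 dd h0 h1

theorem bd {T : ℝ} (hT0 : 0 < T) (hT1 : T < 1) :
    |(DD : ℝ) * (G4 r T / ev DnL T) - ev B T| ≤ E * (1 - T) ^ 1 := by
  rw [eq hT0 hT1]
  exact qf_bd (by norm_num) e0 e1 e2 e3 e4 (q := 2) (by norm_num) (by norm_num) hv h0
    h6 h5 h4 h3 h2 r1 r2 hT0 hT1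

end Vale.Agent.P224.SP.K32
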