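import Vale.Agent.P224.SP.Piv.Dn

/-!
Column function z 1 5 2 0: kernel-checked polynomial approximant on `(0, 1)`.
-/

namespace Vale.Agent.P224.SP.K33

open Vale.Agent.P224.SP

/-- coefficient lists over `DnL` -/
def r : Q4 := ⟨
  [54000000, 35100000, -217620000, -134136000, 323179200, 193631040, -205433280, -125418240,
  41765760, 30987360, 4151520, -164160, -43200],
  [-108000000, -199800000, 230040000, 582336000, -43200000, -548208000, -170640000, 148608000,
  90720000, 17064000, 1080000],
  [54000000, 78300000, -136620000, -226314000, 82868400, 212010480, 28661040, -59108400,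
  -28617840, -4888080, -291600],
  []⟩

/-- reduced coefficient lists -/
def N : Q4 := ⟨
  [21600, 22680, -46008, -44712, 26568, 22032, -2160],
  [-43200, -97200, -10800, 97200, 54000],
  [21600, 39960, -6696, -40284, -14580],
  []⟩

/-- approximant (times `DD`) -/
def B : List ℤ :=
  [13338720130, -2003130585, -20265507052, -36728129401, -13897022025, 346419874431,
  -836428738062, 1407158370654, -1911364939321, 2026418808736, -1615907841020, 929452095696,
  -362702608615, 85782670577, -9272624143]

/-- error (times `DD`) -/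
def E : ℤ := 8486

/-- test list -/
def n0 : List ℤ :=
  [426528738638750, 441187267109125, -919430229416100, -850632536844150, 602146232049975,
  267376684381900, 54942213143625, -50450480600625, -41576914953125, 243220437032500,
  -328478023206875, 172465486005000, 74816411401875, -181143468151875, 125256182252500,
  -42023388931875, 5795390089375]

/-- test list -/
def n1 : List ℤ :=
  [-869730877440000, -1956894474240000, -217432719360000, 1956894474240000, 1087163596800000]

/-- test list -/
def n2 : List ℤ :=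
  [434865438720000, 804501061632000, -134808286003200, -811024043212800, -293534171136000]

/-- test list -/
def n3 : List ℤ :=
  []

/-- weight list -/
def wt : List ℤ :=
  [5303750, -5303750, -10607500, 10607500, 5303750, -5303750]

/-- factor -/
def fac : List ℤ := [2500, -1000, -3700, 720, 1180, 280, 20]

lemma e0 : eqL n0 (addL (smulL DD N.n0) (smulL (-1) (mulL B (dnL 625 0 0 2 0 0)))) = true := by
  decide +kernel

lemma e1 : eqL n1 (smulL DD N.n1) = true := by
  decide +kernel

lemma e2 : eqL n2 (smulL DD N.n2) = true := by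
  decide +kernel

lemma e3 : eqL n3 (smulL DD N.n3) = true := by
  decide +kernel

lemma e4 : eqL wt (smulL E (mulL (powZ 3) (dnL 625 0 0 2 0 0))) = true := by
  decide +kernel

lemma hv : vanT n1 n2 n3 [] [] 0 0 = true := by
  decide +kernel

lemma h0 : chkL05 n0 n1 n2 n3 wt 0 = true := by
  decide +kernel

lemma h6 : chkLp5 n0 n1 n2 n3 wt 0 6 1 2 128 = true := by
  decide +kernel

lemma h5 : chkLp5 n0 n1 n2 n3 wt 0 5 1 2 64 = true := by
  decide +kernel

lemma h4 : chkLp5 n0 n1 n2 n3 wt 0 4 1 2 32 = true := by
  decide +kernel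

lemma h3 : chkLp5 n0 n1 n2 n3 wt 0 3 1 2 16 = true := by
  decide +kernel

lemma h2 : chkLp5 n0 n1 n2 n3 wt 0 2 1 2 8 = true := by
  decide +kernel

lemma r1 : chkN 1 1 4 4 (addL (rW5 n1 n2 n3 wt 0) (rM n0 n1 n2 n3 [] [] 0)) = true := by
  decide +kernel

lemma r2 : chkN 1 1 4 4 (addL (rW5 n1 n2 n3 wt 0)
      (smulL (-1) (rM n0 n1 n2 n3 [] [] 0))) = true := by
  decide +kernel

lemma d0 : eqL r.n0 (mulL fac N.n0) = true := by
  decide +kernel

lemma d1 : eqL r.n1 (mulL fac N.n1) = true := by
  decide +kernel

lemma d2 : eqL r.n2 (mulL fac N.n2) = true := by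
  decide +kernel

lemma d3 : eqL r.n3 (mulL fac N.n3) = true := by
  decide +kernel

lemma dd : eqL DnL (mulL fac (dnL 625 0 0 2 0 0)) = true := by
  decide +kernel

theorem eq {T : ℝ} (h0 : 0 < T) (h1 : T < 1) :
    G4 r T / ev DnL T = qf N 625 0 0 2 0 0 T :=
  G4_div_eq (by norm_num) d0 d1 d2 d3 dd h0 h1

theorem bd {T : ℝ} (hT0 : 0 < T) (hT1 : T < 1) :
    |(DD : ℝ) * (G4 r T / ev DnL T) - ev B T| ≤ E * (1 - T) ^ 3 := by
  rw [eq hT0 hT1]
  exact qf_bd (by norm_num) e0 e1 e2 e3 e4 (q := 1) (by norm_num) (by norm_num) hv h0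
    h6 h5 h4 h3 h2 r1 r2 hT0 hT1

end Vale.Agent.P224.SP.K33
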