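import Vale.Agent.P224.SP.Piv.Dn

/-!
Column function z 1 5 2 1: kernel-checked polynomial approximant on `(0, 1)`.
-/

namespace Vale.Agent.P224.SP.K34

open Vale.Agent.P224.SP

/-- coefficient lists over `DnL` -/
def r : Q4 := ⟨
  [0, -13500000, 21600000, 49680000, -60696000, -70588800, 54959040, 46198080, -14212800,
  -11849760, -1667520, 60480, 17280],
  [0, 27000000, -10800000, -120960000, -13824000, 154224000, 59616000, -53568000, -34560000,
  -6696000, -432000],
  [0, -13500000, 10800000, 53730000, -11664000, -63795600, -10199520, 21645360, 10946880,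
  1920240, 116640],
  []⟩

/-- reduced coefficient lists -/
def N : Q4 := ⟨
  [0, -5400, 6480, 14472, -7344, -9072, 864],
  [0, 10800, 0, -32400, -21600],
  [0, -5400, 2160, 14364, 5832],
  []⟩

/-- approximant (times `DD`) -/
def B : List ℤ :=
  [245, -3334763007, 8008573918, -2215968768, 10996477775, -31162208787, -15895003804,
  141014333429, -274465322743, 340627351936, -297859414665, 183278103655, -75710888856,
  18859785040, -2141055368]

/-- error (times `DD`) -/
def E : ℤ := 249

/-- test list -/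
def n0 : List ℤ :=
  [-153125, -106632133106875, 129622726522875, 284818333904275, -156962445512925,
  -175527720509275, 59408957300675, -48788823146250, 5207287305625, 42055600075625,
  -68081229040000, 44883358586875, 4383810131875, -31697569364375, 25082733840000,
  -9111046440000, 1338159605000]

/-- test list -/
def n1 : List ℤ :=
  [0, 217432719360000, 0, -652298158080000, -434865438720000]

/-- test list -/
def n2 : List ℤ :=
  [0, -108716359680000, 43486543872000, 289185516748800, 117413668454400]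

/-- test list -/
def n3 : List ℤ :=
  []

/-- weight list -/
def wt : List ℤ :=
  [155625, 0, -311250, 0, 155625]

/-- factor -/
def fac : List ℤ := [2500, -1000, -3700, 720, 1180, 280, 20]

lemma e0 : eqL n0 (addL (smulL DD N.n0) (smulL (-1) (mulL B (dnL 625 0 0 2 0 0)))) = true := by
  decide +kernel

lemma e1 : eqL n1 (smulL DD N.n1) = true := by
  decide +kernel

lemma e2 : eqL n2 (smulL DD N.n2) = true := by
  decide +kernel

lemma e3 : eqL n3 (smulL DD N.n3) = true := by
  decide +kernel

lemma e4 : eqL wt (smulL E (mulL (powZ 2) (dnL 625 0 0 2 0 0))) = true := by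
  decide +kernel

lemma hv : vanT n1 n2 n3 [] [] 0 0 = true := by
  decide +kernel

lemma h0 : chkL05 n0 n1 n2 n3 wt 0 = true := by
  decide +kernel

lemma h6 : chkLp5 n0 n1 n2 n3 wt 0 6 1 2 128 = true := by
  decide +kernel

lemma h5 : chkLp5 n0 n1 n2 n3 wt 0 5 1 2 64 = true := by
  decide +kernel

lemma h4 : chkLp5 n0 n1 n2 n3 wt 0 4 1 2 32 = true := by
  decide +kernel

lemma h3 : chkLp5 n0 n1 n2 n3 wt 0 3 1 2 16 = true := by
  decide +kernel

lemma h2 : chkLp5 n0 n1 n2 n3 wt 0 2 1 2 8 = true := by
  decide +kernel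

lemma r1 : chkN 1 1 4 4 (addL (rW5 n1 n2 n3 wt 0) (rM n0 n1 n2 n3 [] [] 0)) = true := by
  decide +kernel

lemma r2 : chkN 1 1 4 4 (addL (rW5 n1 n2 n3 wt 0)
      (smulL (-1) (rM n0 n1 n2 n3 [] [] 0))) = true := by
  decide +kernel

lemma d0 : eqL r.n0 (mulL fac N.n0) = true := by
  decide +kernel

lemma d1 : eqL r.n1 (mulL fac N.n1) = true := by
  decide +kernel

lemma d2 : eqL r.n2 (mulL fac N.n2) = true := by
  decide +kernel

lemma d3 : eqL r.n3 (mulL fac N.n3) = true := by
  decide +kernel

lemma dd : eqL DnL (mulL fac (dnL 625 0 0 2 0 0)) = true := by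
  decide +kernel

theorem eq {T : ℝ} (h0 : 0 < T) (h1 : T < 1) :
    G4 r T / ev DnL T = qf N 625 0 0 2 0 0 T :=
  G4_div_eq (by norm_num) d0 d1 d2 d3 dd h0 h1

theorem bd {T : ℝ} (hT0 : 0 < T) (hT1 : T < 1) :
    |(DD : ℝ) * (G4 r T / ev DnL T) - ev B T| ≤ E * (1 - T) ^ 2 := by
  rw [eq hT0 hT1]
  exact qf_bd (by norm_num) e0 e1 e2 e3 e4 (q := 1) (by norm_num) (by norm_num) hv h0
    h6 h5 h4 h3 h2 r1 r2 hT0 hT1

end Vale.Agent.P224.SP.K34
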