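import Vale.Agent.P224.SP.Piv.Dn

/-!
Column function z 1 5 2 2: kernel-checked polynomial approximant on `(0, 1)`.
-/

namespace Vale.Agent.P224.SP.K35

open Vale.Agent.P224.SP

/-- coefficient lists over `DnL` -/
def r : Q4 := ⟨
  [0, 0, -13500000, -5400000, 38880000, 17064000, -36460800, -17962560, 10272960, 6333120,
  816480, -34560, -8640],
  [0, 0, 27000000, 43200000, -34560000, -82944000, -11664000, 36288000, 19008000, 3456000,
  216000],
  [0, 0, -13500000, -16200000, 21330000, 30996000, -1803600, -13806720, -5968080, -989280,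
  -58320],
  []⟩

/-- reduced coefficient lists -/
def N : Q4 := ⟨
  [0, 0, -5400, -4320, 5832, 4320, -432],
  [0, 0, 10800, 21600, 10800],
  [0, 0, -5400, -8640, -2916],
  []⟩

/-- approximant (times `DD`) -/
def B : List ℤ :=
  [-18, 7226, -3335182714, 1348700327, 348848325, 12705399303, -10804277660, -20117501793,
  58331622015, -83102790682, 79333533876, -52429024378, 23097594244, -6111977404, 735049333]

/-- error (times `DD`) -/
def E : ℤ := 19

/-- test list -/
def n0 : List ℤ :=
  [11250, -4493750, -106631879505000, -83647051572125, 117594252038775, 77753215069000,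
  -18044414568775, 18137911131250, -4557712980625, -8401844721875, 17837765920625,
  -14459532932500, 1516825397500, 7716133308750, -7255430480625, 2901174211250, -459405833125]

/-- test list -/
def n1 : List ℤ :=
  [0, 0, 217432719360000, 434865438720000, 217432719360000]

/-- test list -/
def n2 : List ℤ :=
  [0, 0, -108716359680000, -173946175488000, -58706834227200]

/-- test list -/
def n3 : List ℤ :=
  []

/-- weight list -/
def wt : List ℤ :=
  [11875, 11875, -11875, -11875]

/-- factor -/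
def fac : List ℤ := [2500, -1000, -3700, 720, 1180, 280, 20]

lemma e0 : eqL n0 (addL (smulL DD N.n0) (smulL (-1) (mulL B (dnL 625 0 0 2 0 0)))) = true := by
  decide +kernel

lemma e1 : eqL n1 (smulL DD N.n1) = true := by
  decide +kernel

lemma e2 : eqL n2 (smulL DD N.n2) = true := by
  decide +kernel

lemma e3 : eqL n3 (smulL DD N.n3) = true := by
  decide +kernel

lemma e4 : eqL wt (smulL E (mulL (powZ 1) (dnL 625 0 0 2 0 0))) = true := by
  decide +kernel

lemma hv : vanT n1 n2 n3 [] [] 0 0 = true := by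
  decide +kernel

lemma h0 : chkL05 n0 n1 n2 n3 wt 0 = true := by
  decide +kernel

lemma h6 : chkLp5 n0 n1 n2 n3 wt 0 6 1 2 128 = true := by
  decide +kernel

lemma h5 : chkLp5 n0 n1 n2 n3 wt 0 5 1 2 64 = true := by
  decide +kernel

lemma h4 : chkLp5 n0 n1 n2 n3 wt 0 4 1 2 32 = true := by
  decide +kernel

lemma h3 : chkLp5 n0 n1 n2 n3 wt 0 3 1 2 16 = true := by
  decide +kernel

lemma h2 : chkLp5 n0 n1 n2 n3 wt 0 2 1 2 8 = true := by
  decide +kernel

lemma r1 : chkN 2 1 4 4 (addL (rW5 n1 n2 n3 wt 0) (rM n0 n1 n2 n3 [] [] 0)) = true := by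
  decide +kernel

lemma r2 : chkN 2 1 4 4 (addL (rW5 n1 n2 n3 wt 0)
      (smulL (-1) (rM n0 n1 n2 n3 [] [] 0))) = true := by
  decide +kernel

lemma d0 : eqL r.n0 (mulL fac N.n0) = true := by
  decide +kernel

lemma d1 : eqL r.n1 (mulL fac N.n1) = true := by
  decide +kernel

lemma d2 : eqL r.n2 (mulL fac N.n2) = true := by
  decide +kernel

lemma d3 : eqL r.n3 (mulL fac N.n3) = true := by
  decide +kernel

lemma dd : eqL DnL (mulL fac (dnL 625 0 0 2 0 0)) = true := by
  decide +kernel

theorem eq {T : ℝ} (h0 : 0 < T) (h1 : T < 1) :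
    G4 r T / ev DnL T = qf N 625 0 0 2 0 0 T :=
  G4_div_eq (by norm_num) d0 d1 d2 d3 dd h0 h1

theorem bd {T : ℝ} (hT0 : 0 < T) (hT1 : T < 1) :
    |(DD : ℝ) * (G4 r T / ev DnL T) - ev B T| ≤ E * (1 - T) ^ 1 := by
  rw [eq hT0 hT1]
  exact qf_bd (by norm_num) e0 e1 e2 e3 e4 (q := 2) (by norm_num) (by norm_num) hv h0
    h6 h5 h4 h3 h2 r1 r2 hT0 hT1

end Vale.Agent.P224.SP.K35
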