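import Vale.Agent.P224.SP.Piv.Dn

/-!
Column function z 3 4 0 0: kernel-checked polynomial approximant on `(0, 1)`.
-/

namespace Vale.Agent.P224.SP.K36

open Vale.Agent.P224.SP

/-- coefficient lists over `DnL` -/
def r : Q4 := ⟨
  [6750000, 130000000, -76120000, -447286000, 70519200, 669953920, 56405248, -476420768,
  -104606096, 127868416, 51549120, -3409840, -4475584, -707456, -21888, 1728],
  [151500000, 172800000, -279180000, -356160000, 112795200, 222192000, 9441600, -70905600,
  828000, 35788800, 5738400, -3628800, -1123200, -86400],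
  [-30750000, -17100000, -15705000, 5673000, 156351000, -9505560, -89049624, 4412424, 3830424,
  -7160184, -1607136, 444336, 154656, 11664],
  [-90000000, -24000000, 382200000, 32880000, -551760000, -8400000, 315840000, 14160000,
  -55200000, -14640000, -1080000]⟩

/-- reduced coefficient lists -/
def N : Q4 := ⟨
  [13500, 278900, 239300, -542208, -702948, 195228, 502308, 79168, -52592, -11088, 432],
  [303000, 769800, 543600, -1200, -47400, 95400, 86400, 0, -21600],
  [-61500, -120300, -204750, -262296, -20226, 20040, -32880, 756, 2916],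
  [-180000, -300000, 330000, 570000, -150000, -270000]⟩

/-- approximant (times `DD`) -/
def B : List ℤ :=
  [152605179128, -109531007547, -321013813050, 643339600047, 84286114030, -4994953668973,
  17862318496702, -38826756190783, 60908456185383, -71088747164413, 61111180013764,
  -37518771101286, 15542814956096, -3888718935651, 443491336553]

/-- error (times `DD`) -/
def E : ℤ := 246572

/-- test list -/
def n0 : List ℤ :=
  [-205100285575000, 4526609495139375, 5417093153769375, -9367058621338600, -17095126480177850,
  13721366102147600, -1679877447316400, 2032536093439350, 20753091205581725,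
  -40906578787987725, 25810100790365025, 20446926149531250, -47597795403490625,
  27204397992053125, 6603099073118750, -16272287996256250, 7994515393725000, -1385910426728125]

/-- test list -/
def n1 : List ℤ :=
  [6100195737600000, 15498121052160000, 10944113541120000, -24159191040000, -954288046080000,
  1920655687680000, 1739461754880000, 0, -434865438720000]

/-- test list -/
def n2 : List ℤ :=
  [-1238158540800000, -2421958901760000, -4122161971200000, -5280715977523200,
  -407203164979200, 403458490368000, -661961834496000, 15220290355200, 58706834227200]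

/-- test list -/
def n3 : List ℤ :=
  [-3623878656000000, -6039797760000000, 6643777536000000, 11475615744000000,
  -3019898880000000, -5435817984000000]

/-- weight list -/
def wt : List ℤ :=
  [770537500, 770537500, -1541075000, -1541075000, 770537500, 770537500]

/-- factor -/
def fac : List ℤ := [500, -700, -40, 184, 52, 4]

lemma e0 : eqL n0 (addL (smulL DD N.n0) (smulL (-1) (mulL B (dnL 3125 0 0 3 0 0)))) = true := by
  decide +kernel

lemma e1 : eqL n1 (smulL DD N.n1) = true := by
  decide +kernel

lemma e2 : eqL n2 (smulL DD N.n2) = true := by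
  decide +kernel

lemma e3 : eqL n3 (smulL DD N.n3) = true := by
  decide +kernel

lemma e4 : eqL wt (smulL E (mulL (powZ 2) (dnL 3125 0 0 3 0 0))) = true := by
  decide +kernel

lemma hv : vanT n1 n2 n3 [] [] 0 0 = true := by
  decide +kernel

lemma h0 : chkL05 n0 n1 n2 n3 wt 0 = true := by
  decide +kernel

lemma h6 : chkLp5 n0 n1 n2 n3 wt 0 6 1 2 128 = true := by
  decide +kernel

lemma h5 : chkLp5 n0 n1 n2 n3 wt 0 5 1 2 64 = true := by
  decide +kernel

lemma h4 : chkLp5 n0 n1 n2 n3 wt 0 4 1 2 32 = true := by
  decide +kernel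

lemma h3 : chkLp5 n0 n1 n2 n3 wt 0 3 1 2 16 = true := by
  decide +kernel

lemma h2 : chkLp5 n0 n1 n2 n3 wt 0 2 1 2 8 = true := by
  decide +kernel

lemma r1 : chkN 1 1 4 4 (addL (rW5 n1 n2 n3 wt 0) (rM n0 n1 n2 n3 [] [] 0)) = true := by
  decide +kernel

lemma r2 : chkN 1 1 4 4 (addL (rW5 n1 n2 n3 wt 0)
      (smulL (-1) (rM n0 n1 n2 n3 [] [] 0))) = true := by
  decide +kernel

lemma d0 : eqL r.n0 (mulL fac N.n0) = true := by
  decide +kernel

lemma d1 : eqL r.n1 (mulL fac N.n1) = true := by
  decide +kernel

lemma d2 : eqL r.n2 (mulL fac N.n2) = true := by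
  decide +kernel

lemma d3 : eqL r.n3 (mulL fac N.n3) = true := by
  decide +kernel

lemma dd : eqL DnL (mulL fac (dnL 3125 0 0 3 0 0)) = true := by
  decide +kernel

theorem eq {T : ℝ} (h0 : 0 < T) (h1 : T < 1) :
    G4 r T / ev DnL T = qf N 3125 0 0 3 0 0 T :=
  G4_div_eq (by norm_num) d0 d1 d2 d3 dd h0 h1

theorem bd {T : ℝ} (hT0 : 0 < T) (hT1 : T < 1) :
    |(DD : ℝ) * (G4 r T / ev DnL T) - ev B T| ≤ E * (1 - T) ^ 2 := by
  rw [eq hT0 hT1]
  exact qf_bd (by norm_num) e0 e1 e2 e3 e4 (q := 1) (by norm_num) (by norm_num) hv h0
    h6 h5 h4 h3 h2 r1 r2 hT0 hT1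

end Vale.Agent.P224.SP.K36
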