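import Vale.Agent.P224.SP.Piv.Dn

/-!
Column function z 3 4 0 1: kernel-checked polynomial approximant on `(0, 1)`.
-/

namespace Vale.Agent.P224.SP.K37

open Vale.Agent.P224.SP

/-- coefficient lists over `DnL` -/
def r : Q4 := ⟨
  [75750000, 9800000, -63310000, 103762000, -159186400, -447591680, 244094240, 525673248,
  -74877008, -220909888, -33927536, 27786896, 11417536, 1482880, 39168, -3456],
  [-151500000, -146400000, 321420000, 300768000, -228456000, -195148800, 109675200, 84998400,
  -59656800, -55449600, 6012000, 11059200, 2505600, 172800],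
  [75750000, 57900000, -86235000, -94122000, -53305800, 66649440, 15536280, -23643984,
  21980184, 19460160, 1731552, -1337088, -340416, -23328],
  [0, -30000000, -138000000, 119400000, 342360000, -133560000, -269640000, 28920000, 64200000,
  15240000, 1080000]⟩

/-- reduced coefficient lists -/
def N : Q4 := ⟨
  [151500, 231700, 209880, 464140, 247192, -614528, -546860, 95664, 137152, 21024, -864],
  [-303000, -717000, -385200, 116400, -29400, -203400, -64800, 64800, 43200],
  [151500, 327900, 298710, 200430, 61464, 90144, 54744, -9288, -5832],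
  [0, -60000, -360000, -270000, 300000, 270000]⟩

/-- approximant (times `DD`) -/
def B : List ℤ :=
  [18711262011, 37759325202, 210544548554, -433117758353, 609851493092, 540736693581,
  -6492212386379, 18277976537882, -32346796578883, 41045801807124, -37874360085934,
  24818847777994, -10938432192116, 2904488978707, -350808393234]

/-- error (times `DD`) -/
def E : ℤ := 12980

/-- test list -/
def n0 : List ℤ :=
  [2991625175015625, 4371321164030625, 3038079043542875, 8311543925694250, 5039472327663275,
  -16376715437707600, -154853557883875, -1303407267103700, -8336367304173475,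
  24338489971577050, -20331870044645675, -6207426133378125, 28309897840037500,
  -20848048907521875, -1144405451665625, 10241845111553125, -5787699371890625,
  1096276228856250]

/-- test list -/
def n1 : List ℤ :=
  [-6100195737600000, -14435116646400000, -7755100323840000, 2343441530880000,
  -591900180480000, -4094982881280000, -1304596316160000, 1304596316160000, 869730877440000]

/-- test list -/
def n2 : List ℤ :=
  [3050097868800000, 6601498951680000, 6013826629632000, 4035188883456000, 1237433765068800,
  1814838430924800, 1102142295244800, -186992138649600, -117413668454400]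

/-- test list -/
def n3 : List ℤ :=
  [0, -1207959552000000, -7247757312000000, -5435817984000000, 6039797760000000,
  5435817984000000]

/-- weight list -/
def wt : List ℤ :=
  [40562500, 81125000, 0, -81125000, -40562500]

/-- factor -/
def fac : List ℤ := [500, -700, -40, 184, 52, 4]

lemma e0 : eqL n0 (addL (smulL DD N.n0) (smulL (-1) (mulL B (dnL 3125 0 0 3 0 0)))) = true := by
  decide +kernel

lemma e1 : eqL n1 (smulL DD N.n1) = true := by
  decide +kernel

lemma e2 : eqL n2 (smulL DD N.n2) = true := by
  decide +kernel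

lemma e3 : eqL n3 (smulL DD N.n3) = true := by
  decide +kernel

lemma e4 : eqL wt (smulL E (mulL (powZ 1) (dnL 3125 0 0 3 0 0))) = true := by
  decide +kernel

lemma hv : vanT n1 n2 n3 [] [] 0 0 = true := by
  decide +kernel

lemma h0 : chkL05 n0 n1 n2 n3 wt 0 = true := by
  decide +kernel

lemma h6 : chkLp5 n0 n1 n2 n3 wt 0 6 1 2 128 = true := by
  decide +kernel

lemma h5 : chkLp5 n0 n1 n2 n3 wt 0 5 1 2 64 = true := by
  decide +kernel

lemma h4 : chkLp5 n0 n1 n2 n3 wt 0 4 1 2 32 = true := by
  decide +kernel

lemma h3 : chkLp5 n0 n1 n2 n3 wt 0 3 1 2 16 = true := by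
  decide +kernel

lemma h2 : chkLp5 n0 n1 n2 n3 wt 0 2 1 2 8 = true := by
  decide +kernel

lemma r1 : chkN 1 1 4 4 (addL (rW5 n1 n2 n3 wt 0) (rM n0 n1 n2 n3 [] [] 0)) = true := by
  decide +kernel

lemma r2 : chkN 1 1 4 4 (addL (rW5 n1 n2 n3 wt 0)
      (smulL (-1) (rM n0 n1 n2 n3 [] [] 0))) = true := by
  decide +kernel

lemma d0 : eqL r.n0 (mulL fac N.n0) = true := by
  decide +kernel

lemma d1 : eqL r.n1 (mulL fac N.n1) = true := by
  decide +kernel

lemma d2 : eqL r.n2 (mulL fac N.n2) = true := by
  decide +kernel

lemma d3 : eqL r.n3 (mulL fac N.n3) = true := by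
  decide +kernel

lemma dd : eqL DnL (mulL fac (dnL 3125 0 0 3 0 0)) = true := by
  decide +kernel

theorem eq {T : ℝ} (h0 : 0 < T) (h1 : T < 1) :
    G4 r T / ev DnL T = qf N 3125 0 0 3 0 0 T :=
  G4_div_eq (by norm_num) d0 d1 d2 d3 dd h0 h1

theorem bd {T : ℝ} (hT0 : 0 < T) (hT1 : T < 1) :
    |(DD : ℝ) * (G4 r T / ev DnL T) - ev B T| ≤ E * (1 - T) ^ 1 := by
  rw [eq hT0 hT1]
  exact qf_bd (by norm_num) e0 e1 e2 e3 e4 (q := 1) (by norm_num) (by norm_num) hv h0
    h6 h5 h4 h3 h2 r1 r2 hT0 hT1

end Vale.Agent.P224.SP.K37
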