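import Vale.Agent.P224.SP.Piv.Dn

/-!
Column function z 3 4 0 2: kernel-checked polynomial approximant on `(0, 1)`.
-/

namespace Vale.Agent.P224.SP.K38

open Vale.Agent.P224.SP

/-- coefficient lists over `DnL` -/
def r : Q4 := ⟨
  [0, 24000000, -45400000, -171120000, 10864000, 243899200, 51997440, -84869440, 24720640,
  15023232, -35177920, -26162176, -6986880, -772544, -17280, 1728],
  [0, -48000000, -76800000, 61440000, 147456000, 9936000, -81792000, -19968000, 27033600,
  4281600, -14515200, -7603200, -1382400, -86400],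
  [0, 24000000, -1200000, -73920000, -22704000, 60296400, 59141280, -6799680, -28964640,
  -11136096, 177120, 912192, 185760, 11664],
  [0, 0, 60000000, 36000000, -112800000, -71520000, 45600000, 35040000, 7200000, 480000]⟩

/-- reduced coefficient lists -/
def N : Q4 := ⟨
  [0, 48000, -23600, -371440, -517840, -263200, -167152, -195424, -83840, -9936, 432],
  [0, -96000, -288000, -288000, -96000, -21600, -64800, -64800, -21600],
  [0, 48000, 64800, -53280, -132480, -97980, -17004, 8532, 2916],
  [0, 0, 120000, 240000, 120000]⟩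

/-- approximant (times `DD`) -/
def B : List ℤ :=
  [-846, 5928653449, -116605875949, 45311238241, -80679303130, 245174534253, -61187993037,
  -1031403830481, 2487838891292, -3481588484805, 3339788381620, -2224751820872, 987260497596,
  -262805822949, 31756818626]

/-- error (times `DD`) -/
def E : ℤ := 858

/-- test list -/
def n0 : List ℤ :=
  [2643750, 947840607503125, -166318512932500, -6582073589169875, -9523513231362375,
  -5369117350305625, -4857742183639025, -2184018822866425, 14459243325125, -2782940303658075,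
  2111398025649400, 507228872296875, -2658692796984375, 1985910659865625, 61346807203125,
  -919104639459375, 523548022096875, -99240058206250]

/-- test list -/
def n1 : List ℤ :=
  [0, -1932735283200000, -5798205849600000, -5798205849600000, -1932735283200000,
  -434865438720000, -1304596316160000, -1304596316160000, -434865438720000]

/-- test list -/
def n2 : List ℤ :=
  [0, 966367641600000, 1304596316160000, -1072668082176000, -2667174690816000,
  -1972597948416000, -342335737036800, 171771848294400, 58706834227200]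

/-- test list -/
def n3 : List ℤ :=
  [0, 0, 2415919104000000, 4831838208000000, 2415919104000000]

/-- weight list -/
def wt : List ℤ :=
  [2681250, 5362500, 0, -5362500, -2681250]

/-- factor -/
def fac : List ℤ := [500, -700, -40, 184, 52, 4]

lemma e0 : eqL n0 (addL (smulL DD N.n0) (smulL (-1) (mulL B (dnL 3125 0 0 3 0 0)))) = true := by
  decide +kernel

lemma e1 : eqL n1 (smulL DD N.n1) = true := by
  decide +kernel

lemma e2 : eqL n2 (smulL DD N.n2) = true := by
  decide +kernel

lemma e3 : eqL n3 (smulL DD N.n3) = true := by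
  decide +kernel

lemma e4 : eqL wt (smulL E (mulL (powZ 1) (dnL 3125 0 0 3 0 0))) = true := by
  decide +kernel

lemma hv : vanT n1 n2 n3 [] [] 0 0 = true := by
  decide +kernel

lemma h0 : chkL05 n0 n1 n2 n3 wt 0 = true := by
  decide +kernel

lemma h6 : chkLp5 n0 n1 n2 n3 wt 0 6 1 2 128 = true := by
  decide +kernel

lemma h5 : chkLp5 n0 n1 n2 n3 wt 0 5 1 2 64 = true := by
  decide +kernel

lemma h4 : chkLp5 n0 n1 n2 n3 wt 0 4 1 2 32 = true := by
  decide +kernel

lemma h3 : chkLp5 n0 n1 n2 n3 wt 0 3 1 2 16 = true := by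
  decide +kernel

lemma h2 : chkLp5 n0 n1 n2 n3 wt 0 2 1 2 8 = true := by
  decide +kernel

lemma r1 : chkN 1 1 4 4 (addL (rW5 n1 n2 n3 wt 0) (rM n0 n1 n2 n3 [] [] 0)) = true := by
  decide +kernel

lemma r2 : chkN 1 1 4 4 (addL (rW5 n1 n2 n3 wt 0)
      (smulL (-1) (rM n0 n1 n2 n3 [] [] 0))) = true := by
  decide +kernel

lemma d0 : eqL r.n0 (mulL fac N.n0) = true := by
  decide +kernel

lemma d1 : eqL r.n1 (mulL fac N.n1) = true := by
  decide +kernel

lemma d2 : eqL r.n2 (mulL fac N.n2) = true := by
  decide +kernel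

lemma d3 : eqL r.n3 (mulL fac N.n3) = true := by
  decide +kernel

lemma dd : eqL DnL (mulL fac (dnL 3125 0 0 3 0 0)) = true := by
  decide +kernel

theorem eq {T : ℝ} (h0 : 0 < T) (h1 : T < 1) :
    G4 r T / ev DnL T = qf N 3125 0 0 3 0 0 T :=
  G4_div_eq (by norm_num) d0 d1 d2 d3 dd h0 h1

theorem bd {T : ℝ} (hT0 : 0 < T) (hT1 : T < 1) :
    |(DD : ℝ) * (G4 r T / ev DnL T) - ev B T| ≤ E * (1 - T) ^ 1 := by
  rw [eq hT0 hT1]
  exact qf_bd (by norm_num) e0 e1 e2 e3 e4 (q := 1) (by norm_num) (by norm_num) hv h0
    h6 h5 h4 h3 h2 r1 r2 hT0 hT1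

end Vale.Agent.P224.SP.K38
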