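import Vale.Agent.P224.SP.Piv.Dn

/-!
Column function z 3 5 2 0: kernel-checked polynomial approximant on `(0, 1)`.
-/

namespace Vale.Agent.P224.SP.K39

open Vale.Agent.P224.SP

/-- coefficient lists over `DnL` -/
def r : Q4 := ⟨
  [0, -256500000, -566100000, 481320000, 1710396000, 85888800, -1568953440, -637009920,
  331675200, 313909920, 92149920, 12335040, 828000, 56160, 4320],
  [0, 513000000, 1549800000, 563760000, -2422656000, -2530224000, 208656000, 1317600000,
  651456000, 135432000, 12744000, 432000],
  [0, -256500000, -726300000, -69930000, 1282554000, 894882600, -410120280, -514612440,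
  -176105880, -24359400, 83160, 379080, 29160],
  [0, 0, 108000000, -43200000, -321840000, 95904000, 290736000, -34560000, -75600000,
  -18144000, -1296000]⟩

/-- reduced coefficient lists -/
def N : Q4 := ⟨
  [0, -102600, -370080, -333792, 225000, 469512, 209880, 31464, 0, 216],
  [0, 205200, 907200, 1512000, 1144800, 356400, 21600],
  [0, -102600, -434160, -644004, -385560, -62910, 0, 1458],
  [0, 0, 43200, 43200, -64800, -64800]⟩

/-- approximant (times `DD`) -/
def B : List ℤ :=
  [11609, -63362905214, -270018929788, 321499397872, 769673155124, -1029861150950,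
  -1100954394559, 5561587181510, -10922468759518, 13939917302910, -12476549782514,
  7809792093731, -3266566446390, 821176863533, -93863637356]

/-- error (times `DD`) -/
def E : ℤ := 11787

/-- test list -/
def n0 : List ℤ :=
  [-7255625, -2026009039928125, -7163127260109125, -6295966769983275, 3991878536148750,
  8219001599904150, 5200454377999125, 671695426501925, -893480281490625, 2031649795432825,
  -1335864393232500, -798391184625625, 2079326381143125, -1233940014401250, -237349817377500,
  677891729911875, -337241219665625, 58664773347500]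

/-- test list -/
def n1 : List ℤ :=
  [0, 4131221667840000, 18264348426240000, 30440580710400000, 23047868252160000,
  7175279738880000, 434865438720000]

/-- test list -/
def n2 : List ℤ :=
  [0, -2065610833920000, -8740795318272000, -12965513055436800, -7762348081152000,
  -1266545590272000, 0, 29353417113600]

/-- test list -/
def n3 : List ℤ :=
  [0, 0, 869730877440000, 869730877440000, -1304596316160000, -1304596316160000]

/-- weight list -/
def wt : List ℤ :=
  [7366875, 7366875, -14733750, -14733750, 7366875, 7366875]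

/-- factor -/
def fac : List ℤ := [2500, -3500, -200, 920, 260, 20]

lemma e0 : eqL n0 (addL (smulL DD N.n0) (smulL (-1) (mulL B (dnL 625 0 0 3 0 0)))) = true := by
  decide +kernel

lemma e1 : eqL n1 (smulL DD N.n1) = true := by
  decide +kernel

lemma e2 : eqL n2 (smulL DD N.n2) = true := by
  decide +kernel

lemma e3 : eqL n3 (smulL DD N.n3) = true := by
  decide +kernel

lemma e4 : eqL wt (smulL E (mulL (powZ 2) (dnL 625 0 0 3 0 0))) = true := by
  decide +kernel

lemma hv : vanT n1 n2 n3 [] [] 0 0 = true := by
  decide +kernel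

lemma h0 : chkL05 n0 n1 n2 n3 wt 0 = true := by
  decide +kernel

lemma h6 : chkLp5 n0 n1 n2 n3 wt 0 6 1 2 128 = true := by
  decide +kernel

lemma h5 : chkLp5 n0 n1 n2 n3 wt 0 5 1 2 64 = true := by
  decide +kernel

lemma h4 : chkLp5 n0 n1 n2 n3 wt 0 4 1 2 32 = true := by
  decide +kernel

lemma h3 : chkLp5 n0 n1 n2 n3 wt 0 3 1 2 16 = true := by
  decide +kernel

lemma h2 : chkLp5 n0 n1 n2 n3 wt 0 2 1 2 8 = true := by
  decide +kernel

lemma r1 : chkN 1 1 4 4 (addL (rW5 n1 n2 n3 wt 0) (rM n0 n1 n2 n3 [] [] 0)) = true := by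
  decide +kernel

lemma r2 : chkN 1 1 4 4 (addL (rW5 n1 n2 n3 wt 0)
      (smulL (-1) (rM n0 n1 n2 n3 [] [] 0))) = true := by
  decide +kernel

lemma d0 : eqL r.n0 (mulL fac N.n0) = true := by
  decide +kernel

lemma d1 : eqL r.n1 (mulL fac N.n1) = true := by
  decide +kernel

lemma d2 : eqL r.n2 (mulL fac N.n2) = true := by
  decide +kernel

lemma d3 : eqL r.n3 (mulL fac N.n3) = true := by
  decide +kernel

lemma dd : eqL DnL (mulL fac (dnL 625 0 0 3 0 0)) = true := by
  decide +kernel

theorem eq {T : ℝ} (h0 : 0 < T) (h1 : T < 1) :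
    G4 r T / ev DnL T = qf N 625 0 0 3 0 0 T :=
  G4_div_eq (by norm_num) d0 d1 d2 d3 dd h0 h1

theorem bd {T : ℝ} (hT0 : 0 < T) (hT1 : T < 1) :
    |(DD : ℝ) * (G4 r T / ev DnL T) - ev B T| ≤ E * (1 - T) ^ 2 := by
  rw [eq hT0 hT1]
  exact qf_bd (by norm_num) e0 e1 e2 e3 e4 (q := 1) (by norm_num) (by norm_num) hv h0
    h6 h5 h4 h3 h2 r1 r2 hT0 hT1

end Vale.Agent.P224.SP.K39
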