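import Vale.Agent.P224.SP.Piv.Dn

/-!
Column function z 3 5 2 1: kernel-checked polynomial approximant on `(0, 1)`.
-/

namespace Vale.Agent.P224.SP.K40

open Vale.Agent.P224.SP

/-- coefficient lists over `DnL` -/
def r : Q4 := ⟨
  [0, 0, 364500000, 46800000, -1233360000, -297108000, 1388217600, 611413920, -425230560,
  -348953760, -93147840, -12074400, -974880, -77760, -4320],
  [0, 0, -729000000, -1166400000, 933120000, 2239488000, 314928000, -979776000, -513216000,
  -93312000, -5832000],
  [0, 0, 364500000, 383400000, -640710000, -751572000, 183616200, 346613040, 110139480,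
  7153920, -2586600, -524880, -29160],
  [0, 0, 0, 108000000, 64800000, -257040000, -161136000, 129600000, 95040000, 19440000,
  1296000]⟩

/-- reduced coefficient lists -/
def N : Q4 := ⟨
  [0, 0, 145800, 77040, -392544, -222552, 287640, 209448, 23688, 864, 216],
  [0, 0, -291600, -583200, 0, 583200, 291600],
  [0, 0, 145800, 211680, -101628, -223344, -39798, 5832, 1458],
  [0, 0, 0, 43200, 43200, -64800, -64800]⟩

/-- approximant (times `DD`) -/
def B : List ℤ :=
  [-380, 150792, 90025886936, -241294950617, 61207423993, 319640466517, -607296180315,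
  598556058416, -77809524208, -574599181935, 878588564201, -709565081852, 348936483362,
  -98824829207, 12434714297]

/-- error (times `DD`) -/
def E : ℤ := 386

/-- test list -/
def n0 : List ℤ :=
  [237500, -93770000, 2879075343535000, 1589297049758625, -7639590336476675, -4644315688927775,
  5525615112902375, 4527467828860975, 215143533881475, -85563922302450, 542114739503450,
  -377921897843750, -98008879835000, 364706130593750, -222079159616250, -22850964826250,
  94554265592500, -46222125383125, 7771696435625]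

/-- test list -/
def n1 : List ℤ :=
  [0, 0, -5870683422720000, -11741366845440000, 0, 11741366845440000, 5870683422720000]

/-- test list -/
def n2 : List ℤ :=
  [0, 0, 2935341711360000, 4261681299456000, -2046041889177600, -4496508636364800,
  -801239570841600, 117413668454400, 29353417113600]

/-- test list -/
def n3 : List ℤ :=
  [0, 0, 0, 869730877440000, 869730877440000, -1304596316160000, -1304596316160000]

/-- weight list -/
def wt : List ℤ :=
  [241250, 241250, -482500, -482500, 241250, 241250]

/-- factor -/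
def fac : List ℤ := [2500, -1000, -1200, -280, -20]

lemma e0 : eqL n0 (addL (smulL DD N.n0) (smulL (-1) (mulL B (dnL 625 0 1 3 0 0)))) = true := by
  decide +kernel

lemma e1 : eqL n1 (smulL DD N.n1) = true := by
  decide +kernel

lemma e2 : eqL n2 (smulL DD N.n2) = true := by
  decide +kernel

lemma e3 : eqL n3 (smulL DD N.n3) = true := by
  decide +kernel

lemma e4 : eqL wt (smulL E (mulL (powZ 1) (dnL 625 0 1 3 0 0))) = true := by
  decide +kernel

lemma hv : vanT n1 n2 n3 [] [] 0 0 = true := by
  decide +kernel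

lemma h0 : chkL05 n0 n1 n2 n3 wt 0 = true := by
  decide +kernel

lemma h6 : chkLp5 n0 n1 n2 n3 wt 0 6 1 2 128 = true := by
  decide +kernel

lemma h5 : chkLp5 n0 n1 n2 n3 wt 0 5 1 2 64 = true := by
  decide +kernel

lemma h4 : chkLp5 n0 n1 n2 n3 wt 0 4 1 2 32 = true := by
  decide +kernel

lemma h3 : chkLp5 n0 n1 n2 n3 wt 0 3 1 2 16 = true := by
  decide +kernel

lemma h2 : chkLp5 n0 n1 n2 n3 wt 0 2 1 2 8 = true := by
  decide +kernel

lemma r1 : chkN 1 1 4 4 (addL (rW5 n1 n2 n3 wt 0) (rM n0 n1 n2 n3 [] [] 0)) = true := by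
  decide +kernel

lemma r2 : chkN 1 1 4 4 (addL (rW5 n1 n2 n3 wt 0)
      (smulL (-1) (rM n0 n1 n2 n3 [] [] 0))) = true := by
  decide +kernel

lemma d0 : eqL r.n0 (mulL fac N.n0) = true := by
  decide +kernel

lemma d1 : eqL r.n1 (mulL fac N.n1) = true := by
  decide +kernel

lemma d2 : eqL r.n2 (mulL fac N.n2) = true := by
  decide +kernel

lemma d3 : eqL r.n3 (mulL fac N.n3) = true := by
  decide +kernel

lemma dd : eqL DnL (mulL fac (dnL 625 0 1 3 0 0)) = true := by
  decide +kernel

theorem eq {T : ℝ} (h0 : 0 < T) (h1 : T < 1) :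
    G4 r T / ev DnL T = qf N 625 0 1 3 0 0 T :=
  G4_div_eq (by norm_num) d0 d1 d2 d3 dd h0 h1

theorem bd {T : ℝ} (hT0 : 0 < T) (hT1 : T < 1) :
    |(DD : ℝ) * (G4 r T / ev DnL T) - ev B T| ≤ E * (1 - T) ^ 1 := by
  rw [eq hT0 hT1]
  exact qf_bd (by norm_num) e0 e1 e2 e3 e4 (q := 1) (by norm_num) (by norm_num) hv h0
    h6 h5 h4 h3 h2 r1 r2 hT0 hT1

end Vale.Agent.P224.SP.K40
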