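import Vale.Agent.P224.SP.Piv.Dn

/-!
Column function f 3 0 0 0 0: kernel-checked polynomial approximant on `(0, 1)`.
-/

namespace Vale.Agent.P224.SP.K00

open Vale.Agent.P224.SP

/-- coefficient lists over `DnL` -/
def r : Q4 := ⟨
  [-6687500, 7437500, 52601250, 14987000, -86444600, -63639780, 36000440, 51436204, 10300488,
  -9086624, -5705146, -1136244, -64932, 1944],
  [16500000, 40050000, 9071250, -44892000, -34161750, 2978100, 8880450, 3106800, 672150,
  -1097100, -962100, -145800],
  [-8250000, -8850000, 16419375, 13506750, -18544950, -9012060, 12578280, 4850688, -2274714,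
  -508500, 72009, 13122],
  [0, -15750000, -22050000, 32670000, 53190000, -16470000, -40230000, -2070000, 9090000,
  1620000]⟩

/-- reduced coefficient lists -/
def N : Q4 := ⟨
  [-1337500, 1755000, 8831750, 2718550, -8649880, -6513080, 396534, 1964878, 761040, 74652,
  -1944],
  [3300000, 7350000, 3644250, -1697250, -1378650, -97050, 77400, 233100, 145800],
  [-1650000, -1440000, 1921875, 546975, -2184510, -434160, 527373, -6399, -13122],
  [0, -3150000, -3780000, 4140000, 5400000, -990000, -1620000]⟩

/-- approximant (times `DD`) -/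
def B : List ℤ :=
  [18094801890, 37162273792, -8307906185, -27108408591, 17292856489, 45705801064,
  -146780009356, 221866311450, -234194033944, 175038261434, -87687726784, 26301494231,
  -3560848034]

/-- error (times `DD`) -/
def E : ℤ := 1594

/-- test list -/
def n0 : List ℤ :=
  [-32582057270625000, 15803130509125000, 167310929119162500, 81031416025635000,
  -150861057016046000, -155913141490798500, 24683116397825300, 45957975094152600,
  -12781740219557000, 32209185306835900, -15517664993959800, -10084737447012500,
  19223419432637500, -9966315855025000, 685902477350000, 1006998457512500, -160847926787500,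
  -44510600425000]

/-- test list -/
def n1 : List ℤ :=
  [66437775360000000, 147975045120000000, 73368443289600000, -34170155827200000,
  -27755890606080000, -1953874575360000, 1558267822080000, 4692922859520000, 2935341711360000]

/-- test list -/
def n2 : List ℤ :=
  [-33218887680000000, -28991029248000000, 38692454400000000, 11012061265920000,
  -43979995348992000, -8740795318272000, 10617420880281600, -128828886220800, -264180754022400]

/-- test list -/
def n3 : List ℤ :=
  [0, -63417876480000000, -76101451776000000, 83349209088000000, 108716359680000000,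
  -19931332608000000, -32614907904000000]

/-- weight list -/
def wt : List ℤ :=
  [498125000, 199250000, -976325000, -398500000, 458275000, 199250000, 19925000]

/-- factor -/
def fac : List ℤ := [5, 1, -5, -1]

lemma e0 : eqL n0 (addL (smulL DD N.n0) (smulL (-1) (mulL B (dnL 12500 0 1 2 0 2)))) = true := by
  decide +kernel

lemma e1 : eqL n1 (smulL DD N.n1) = true := by
  decide +kernel

lemma e2 : eqL n2 (smulL DD N.n2) = true := by
  decide +kernel

lemma e3 : eqL n3 (smulL DD N.n3) = true := by
  decide +kernel

lemma e4 : eqL wt (smulL E (mulL (powZ 1) (dnL 12500 0 1 2 0 2))) = true := by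
  decide +kernel

lemma hv : vanT n1 n2 n3 [] [] 0 0 = true := by
  decide +kernel

lemma h0 : chkL05 n0 n1 n2 n3 wt 0 = true := by
  decide +kernel

lemma h6 : chkLp5 n0 n1 n2 n3 wt 0 6 1 2 128 = true := by
  decide +kernel

lemma h5 : chkLp5 n0 n1 n2 n3 wt 0 5 1 2 64 = true := by
  decide +kernel

lemma h4 : chkLp5 n0 n1 n2 n3 wt 0 4 1 2 32 = true := by
  decide +kernel

lemma h3 : chkLp5 n0 n1 n2 n3 wt 0 3 1 2 16 = true := by
  decide +kernel

lemma h2 : chkLp5 n0 n1 n2 n3 wt 0 2 1 2 8 = true := by
  decide +kernel

lemma r1 : chkN 1 1 4 4 (addL (rW5 n1 n2 n3 wt 0) (rM n0 n1 n2 n3 [] [] 0)) = true := by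
  decide +kernel

lemma r2 : chkN 1 1 4 4 (addL (rW5 n1 n2 n3 wt 0)
      (smulL (-1) (rM n0 n1 n2 n3 [] [] 0))) = true := by
  decide +kernel

lemma d0 : eqL r.n0 (mulL fac N.n0) = true := by
  decide +kernel

lemma d1 : eqL r.n1 (mulL fac N.n1) = true := by
  decide +kernel

lemma d2 : eqL r.n2 (mulL fac N.n2) = true := by
  decide +kernel

lemma d3 : eqL r.n3 (mulL fac N.n3) = true := by
  decide +kernel

lemma dd : eqL DnL (mulL fac (dnL 12500 0 1 2 0 2)) = true := by
  decide +kernel

theorem eq {T : ℝ} (h0 : 0 < T) (h1 : T < 1) :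
    G4 r T / ev DnL T = qf N 12500 0 1 2 0 2 T :=
  G4_div_eq (by norm_num) d0 d1 d2 d3 dd h0 h1

theorem bd {T : ℝ} (hT0 : 0 < T) (hT1 : T < 1) :
    |(DD : ℝ) * (G4 r T / ev DnL T) - ev B T| ≤ E * (1 - T) ^ 1 := by
  rw [eq hT0 hT1]
  exact qf_bd (by norm_num) e0 e1 e2 e3 e4 (q := 1) (by norm_num) (by norm_num) hv h0
    h6 h5 h4 h3 h2 r1 r2 hT0 hT1

end Vale.Agent.P224.SP.K00
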