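import Vale.Agent.P224.SP.Piv.Dn

/-!
Column function fp 3 0 2 0 1: kernel-checked polynomial approximant on `(0, 1)`.
-/

namespace Vale.Agent.P224.SP.K13

open Vale.Agent.P224.SP

/-- coefficient lists over `DnL` -/
def r : Q4 := ⟨
  [37125000, -158400000, -679635000, -306846000, 913275000, 1047185280, 69775560, -517806576,
  -372966912, -110291040, -14255568, -497664, 25920],
  [-74250000, -207900000, -109890000, 146124000, 164430000, 49960800, -28782000, -94716000,
  -75924000, -19440000, -1555200],
  [37125000, -29700000, -235372500, -66636000, 279058500, 94890960, -105579180, -34651152,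
  3644676, 2083968, 174960],
  [0, 237600000, 380160000, -339552000, -718416000, 8640000, 344736000, 108864000, 9072000]⟩

/-- reduced coefficient lists -/
def N : Q4 := ⟨
  [1856250, -8291250, -32323500, -8877600, 47439270, 42871410, -5085504, -24873228, -13673700,
  -2779812, -156816, 6480],
  [-3712500, -9652500, -3564000, 8019000, 6617700, 1174500, -1674000, -4401000, -2916000,
  -388800],
  [1856250, -1856250, -11397375, -1052325, 14163390, 1911870, -5661333, -600291, 302292, 43740],
  [0, 11880000, 16632000, -20304000, -31860000, 6804000, 15876000, 2268000]⟩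

/-- approximant (times `DD`) -/
def B : List ℤ :=
  [9169926245, -444849320473, -273061887758, 284326406062, -866257548128, 94614567769,
  967288214821, -1385572232561, 993183272638, -382891848023, 63049958400]

/-- error (times `DD`) -/
def E : ℤ := 445897

/-- test list -/
def n0 : List ℤ :=
  [36654848152109375, -133174018113093750, -579652070482262500, -223315297400051250,
  862370805535209000, 929468768099425125, -184450011239005550, -632812187233413225,
  -73467244578308750, -15450700707920400, -133860277617969700, 73417391214066000,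
  25152999343162500, -40630996812609375, 9083866697193750, 3556182588796875, -970805294928125,
  -197031120000000]

/-- test list -/
def n1 : List ℤ :=
  [-74742497280000000, -194330492928000000, -71752797388800000, 161443794124800000,
  133231898787840000, 23645808230400000, -33702071500800000, -88603833139200000,
  -58706834227200000, -7827577896960000]

/-- test list -/
def n2 : List ℤ :=
  [37371248640000000, -37371248640000000, -229459466649600000, -21186100592640000,
  285146703986688000, 38491027144704000, -113977687906713600, -12085454123827200,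
  6085941814886400, 880602513408000]

/-- test list -/
def n3 : List ℤ :=
  [0, 239175991296000000, 334846387814400000, -408773512396800000, -641426522112000000,
  136982613196800000, 319626097459200000, 45660871065600000]

/-- weight list -/
def wt : List ℤ :=
  [34835703125, 13934281250, -103113681250, -41802843750, 100326825000, 41802843750,
  -30655418750, -13934281250, -1393428125]

/-- factor -/
def fac : List ℤ := [20, 4]

lemma e0 : eqL n0 (addL (smulL DD N.n0) (smulL (-1) (mulL B (dnL 3125 0 2 3 0 2)))) = true := by
  decide +kernel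

lemma e1 : eqL n1 (smulL DD N.n1) = true := by
  decide +kernel

lemma e2 : eqL n2 (smulL DD N.n2) = true := by
  decide +kernel

lemma e3 : eqL n3 (smulL DD N.n3) = true := by
  decide +kernel

lemma e4 : eqL wt (smulL E (mulL (powZ 1) (dnL 3125 0 2 3 0 2))) = true := by
  decide +kernel

lemma hv : vanT n1 n2 n3 [] [] 0 0 = true := by
  decide +kernel

lemma h0 : chkL05 n0 n1 n2 n3 wt 0 = true := by
  decide +kernel

lemma h6 : chkLp5 n0 n1 n2 n3 wt 0 6 1 2 128 = true := by
  decide +kernel

lemma h5 : chkLp5 n0 n1 n2 n3 wt 0 5 1 2 64 = true := by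
  decide +kernel

lemma h4 : chkLp5 n0 n1 n2 n3 wt 0 4 1 2 32 = true := by
  decide +kernel

lemma h3 : chkLp5 n0 n1 n2 n3 wt 0 3 1 2 16 = true := by
  decide +kernel

lemma h2 : chkLp5 n0 n1 n2 n3 wt 0 2 1 2 8 = true := by
  decide +kernel

lemma r1 : chkN 1 1 4 4 (addL (rW5 n1 n2 n3 wt 0) (rM n0 n1 n2 n3 [] [] 0)) = true := by
  decide +kernel

lemma r2 : chkN 1 1 4 4 (addL (rW5 n1 n2 n3 wt 0)
      (smulL (-1) (rM n0 n1 n2 n3 [] [] 0))) = true := by
  decide +kernel

lemma d0 : eqL r.n0 (mulL fac N.n0) = true := by
  decide +kernel

lemma d1 : eqL r.n1 (mulL fac N.n1) = true := by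
  decide +kernel

lemma d2 : eqL r.n2 (mulL fac N.n2) = true := by
  decide +kernel

lemma d3 : eqL r.n3 (mulL fac N.n3) = true := by
  decide +kernel

lemma dd : eqL DnL (mulL fac (dnL 3125 0 2 3 0 2)) = true := by
  decide +kernel

theorem eq {T : ℝ} (h0 : 0 < T) (h1 : T < 1) :
    G4 r T / ev DnL T = qf N 3125 0 2 3 0 2 T :=
  G4_div_eq (by norm_num) d0 d1 d2 d3 dd h0 h1

theorem bd {T : ℝ} (hT0 : 0 < T) (hT1 : T < 1) :
    |(DD : ℝ) * (G4 r T / ev DnL T) - ev B T| ≤ E * (1 - T) ^ 1 := by
  rw [eq hT0 hT1]
  exact qf_bd (by norm_num) e0 e1 e2 e3 e4 (q := 1) (by norm_num) (by norm_num) hv h0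
    h6 h5 h4 h3 h2 r1 r2 hT0 hT1

end Vale.Agent.P224.SP.K13
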