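import Vale.Agent.P224.SP.Piv.Dn

/-!
Column function z 0 5 3 0: kernel-checked polynomial approximant on `(0, 1)`.
-/

namespace Vale.Agent.P224.SP.K27

open Vale.Agent.P224.SP

/-- coefficient lists over `DnL` -/
def r : Q4 := ⟨
  [0, -567000000, 16200000, 1730160000, 16848000, -1838505600, -98133120, 754790400, 81077760,
  -79704000, -16148160, 259200, 155520],
  [0, 1134000000, 1328400000, -2229120000, -2861568000, 1003104000, 1734048000, 145152000,
  -196992000, -53136000, -3888000],
  [0, -567000000, -437400000, 1187460000, 917892000, -633679200, -547417440, -2138400,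
  65875680, 15357600, 1049760],
  []⟩

/-- reduced coefficient lists -/
def N : Q4 := ⟨
  [0, -226800, -84240, 322704, 76464, -95904, 7776],
  [0, 453600, 712800, 64800, -194400],
  [0, -226800, -265680, 33048, 52488],
  []⟩

/-- approximant (times `DD`) -/
def B : List ℤ :=
  [7717, -140059158248, 116216949543, -3618415815, 480029152113, -437585132314, -1525347523294,
  5034836945324, -8619584512918, 10254505923443, -8815500672170, 5383827386989, -2216464402776,
  551291160973, -62547708567]

/-- error (times `DD`) -/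
def E : ℤ := 7835

/-- test list -/
def n0 : List ℤ :=
  [-4823125, -4478550142301250, -1593536861485500, 6441416951337425, 1171292859302550,
  -2255086770477425, 1356856955319825, -966597979013750, 47036340977500, 1218641348168125,
  -1921204163623750, 1245417521192500, 165193938105000, -938868589006250, 735268618373125,
  -266372339899375, 39092317854375]

/-- test list -/
def n1 : List ℤ :=
  [0, 9132174213120000, 14350559477760000, 1304596316160000, -3913788948480000]

/-- test list -/
def n2 : List ℤ :=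
  [0, -4566087106560000, -5348844896256000, 665344121241600, 1056723016089600]

/-- test list -/
def n3 : List ℤ :=
  []

/-- weight list -/
def wt : List ℤ :=
  [4896875, 0, -9793750, 0, 4896875]

/-- factor -/
def fac : List ℤ := [2500, -1000, -3700, 720, 1180, 280, 20]

lemma e0 : eqL n0 (addL (smulL DD N.n0) (smulL (-1) (mulL B (dnL 625 0 0 2 0 0)))) = true := by
  decide +kernel

lemma e1 : eqL n1 (smulL DD N.n1) = true := by
  decide +kernel

lemma e2 : eqL n2 (smulL DD N.n2) = true := by
  decide +kernel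

lemma e3 : eqL n3 (smulL DD N.n3) = true := by
  decide +kernel

lemma e4 : eqL wt (smulL E (mulL (powZ 2) (dnL 625 0 0 2 0 0))) = true := by
  decide +kernel

lemma hv : vanT n1 n2 n3 [] [] 0 0 = true := by
  decide +kernel

lemma h0 : chkL05 n0 n1 n2 n3 wt 0 = true := by
  decide +kernel

lemma h6 : chkLp5 n0 n1 n2 n3 wt 0 6 1 2 128 = true := by
  decide +kernel

lemma h5 : chkLp5 n0 n1 n2 n3 wt 0 5 1 2 64 = true := by
  decide +kernel

lemma h4 : chkLp5 n0 n1 n2 n3 wt 0 4 1 2 32 = true := by
  decide +kernel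

lemma h3 : chkLp5 n0 n1 n2 n3 wt 0 3 1 2 16 = true := by
  decide +kernel

lemma h2 : chkLp5 n0 n1 n2 n3 wt 0 2 1 2 8 = true := by
  decide +kernel

lemma r1 : chkN 1 1 4 4 (addL (rW5 n1 n2 n3 wt 0) (rM n0 n1 n2 n3 [] [] 0)) = true := by
  decide +kernel

lemma r2 : chkN 1 1 4 4 (addL (rW5 n1 n2 n3 wt 0)
      (smulL (-1) (rM n0 n1 n2 n3 [] [] 0))) = true := by
  decide +kernel

lemma d0 : eqL r.n0 (mulL fac N.n0) = true := by
  decide +kernel

lemma d1 : eqL r.n1 (mulL fac N.n1) = true := by
  decide +kernel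

lemma d2 : eqL r.n2 (mulL fac N.n2) = true := by
  decide +kernel

lemma d3 : eqL r.n3 (mulL fac N.n3) = true := by
  decide +kernel

lemma dd : eqL DnL (mulL fac (dnL 625 0 0 2 0 0)) = true := by
  decide +kernel

theorem eq {T : ℝ} (h0 : 0 < T) (h1 : T < 1) :
    G4 r T / ev DnL T = qf N 625 0 0 2 0 0 T :=
  G4_div_eq (by norm_num) d0 d1 d2 d3 dd h0 h1

theorem bd {T : ℝ} (hT0 : 0 < T) (hT1 : T < 1) :
    |(DD : ℝ) * (G4 r T / ev DnL T) - ev B T| ≤ E * (1 - T) ^ 2 := by
  rw [eq hT0 hT1]
  exact qf_bd (by norm_num) e0 e1 e2 e3 e4 (q := 1) (by norm_num) (by norm_num) hv h0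
    h6 h5 h4 h3 h2 r1 r2 hT0 hT1

end Vale.Agent.P224.SP.K27
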