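import Vale.Agent.P224.SP.Piv.Dn

/-!
Column function z 3 5 3 0: kernel-checked polynomial approximant on `(0, 1)`.
-/

namespace Vale.Agent.P224.SP.K41

open Vale.Agent.P224.SP

/-- coefficient lists over `DnL` -/
def r : Q4 := ⟨
  [0, 0, 324000000, 129600000, -933120000, -409536000, 875059200, 431101440, -246551040,
  -151994880, -19595520, 829440, 207360],
  [0, 0, -648000000, -1036800000, 829440000, 1990656000, 279936000, -870912000, -456192000,
  -82944000, -5184000],
  [0, 0, 324000000, 388800000, -511920000, -743904000, 43286400, 331361280, 143233920,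
  23742720, 1399680],
  []⟩

/-- reduced coefficient lists -/
def N : Q4 := ⟨
  [0, 0, 129600, 103680, -139968, -103680, 10368],
  [0, 0, -259200, -518400, -259200],
  [0, 0, 129600, 207360, 69984],
  []⟩

/-- approximant (times `DD`) -/
def B : List ℤ :=
  [938, -322938, 80052056388, -32528099079, -6609849296, -316810049730, 311911768565,
  322823657711, -1057439651752, 1473397402859, -1343488997720, 841401078722, -350324701506,
  87570840251, -9955133413]

/-- error (times `DD`) -/
def E : ℤ := 952

/-- test list -/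
def n0 : List ℤ :=
  [-586250, 200663750, 2559160500163750, 2007619299131625, -2823169298489350,
  -1860755451230375, 413934273204975, -393648215694375, 62425354853125, 199161401833750,
  -341166347653750, 232612196161875, 6882213613750, -142701572475625, 115711346510625,
  -42287858390625, 6221958383125]

/-- test list -/
def n1 : List ℤ :=
  [0, 0, -5218385264640000, -10436770529280000, -5218385264640000]

/-- test list -/
def n2 : List ℤ :=
  [0, 0, 2609192632320000, 4174708211712000, 1408964021452800]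

/-- test list -/
def n3 : List ℤ :=
  []

/-- weight list -/
def wt : List ℤ :=
  [595000, 0, -1190000, 0, 595000]

/-- factor -/
def fac : List ℤ := [2500, -1000, -3700, 720, 1180, 280, 20]

lemma e0 : eqL n0 (addL (smulL DD N.n0) (smulL (-1) (mulL B (dnL 625 0 0 2 0 0)))) = true := by
  decide +kernel

lemma e1 : eqL n1 (smulL DD N.n1) = true := by
  decide +kernel

lemma e2 : eqL n2 (smulL DD N.n2) = true := by
  decide +kernel

lemma e3 : eqL n3 (smulL DD N.n3) = true := by
  decide +kernel

lemma e4 : eqL wt (smulL E (mulL (powZ 2) (dnL 625 0 0 2 0 0))) = true := by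
  decide +kernel

lemma hv : vanT n1 n2 n3 [] [] 0 0 = true := by
  decide +kernel

lemma h0 : chkL05 n0 n1 n2 n3 wt 0 = true := by
  decide +kernel

lemma h6 : chkLp5 n0 n1 n2 n3 wt 0 6 1 2 128 = true := by
  decide +kernel

lemma h5 : chkLp5 n0 n1 n2 n3 wt 0 5 1 2 64 = true := by
  decide +kernel

lemma h4 : chkLp5 n0 n1 n2 n3 wt 0 4 1 2 32 = true := by
  decide +kernel

lemma h3 : chkLp5 n0 n1 n2 n3 wt 0 3 1 2 16 = true := by
  decide +kernel

lemma h2 : chkLp5 n0 n1 n2 n3 wt 0 2 1 2 8 = true := by
  decide +kernel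

lemma r1 : chkN 1 1 4 4 (addL (rW5 n1 n2 n3 wt 0) (rM n0 n1 n2 n3 [] [] 0)) = true := by
  decide +kernel

lemma r2 : chkN 1 1 4 4 (addL (rW5 n1 n2 n3 wt 0)
      (smulL (-1) (rM n0 n1 n2 n3 [] [] 0))) = true := by
  decide +kernel

lemma d0 : eqL r.n0 (mulL fac N.n0) = true := by
  decide +kernel

lemma d1 : eqL r.n1 (mulL fac N.n1) = true := by
  decide +kernel

lemma d2 : eqL r.n2 (mulL fac N.n2) = true := by
  decide +kernel

lemma d3 : eqL r.n3 (mulL fac N.n3) = true := by
  decide +kernel

lemma dd : eqL DnL (mulL fac (dnL 625 0 0 2 0 0)) = true := by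
  decide +kernel

theorem eq {T : ℝ} (h0 : 0 < T) (h1 : T < 1) :
    G4 r T / ev DnL T = qf N 625 0 0 2 0 0 T :=
  G4_div_eq (by norm_num) d0 d1 d2 d3 dd h0 h1

theorem bd {T : ℝ} (hT0 : 0 < T) (hT1 : T < 1) :
    |(DD : ℝ) * (G4 r T / ev DnL T) - ev B T| ≤ E * (1 - T) ^ 2 := by
  rw [eq hT0 hT1]
  exact qf_bd (by norm_num) e0 e1 e2 e3 e4 (q := 1) (by norm_num) (by norm_num) hv h0
    h6 h5 h4 h3 h2 r1 r2 hT0 hT1

end Vale.Agent.P224.SP.K41
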